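import Vale.Agent.P042.TT.LocOne
import Vale.Agent.P042.H956.Scal

set_option autoImplicit false

/-!
One-coordinate constants that are polynomial in the moment.
-/

namespace Vale.Agent.P042.H527

open Finset Vale.Agent.P042.TT.Loc

theorem oneC_poly (m : ℕ) (hm : 1 ≤ m) : OneC m (8 * m) (2 * (4 * m) ^ (2 * m)) := by
  intro α _ w b c A hw hw1 hA hc hb hb0
  have h := Vale.Agent.P042.H956.one_site w (fun a => b a / 2) c hw hw1 m hm A hA hc
    (fun a => by
      have := hb a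
      nlinarith) (by
      have : ∀ a, w a * (b a / 2) = (w a * b a) / 2 := fun a => by ring
      rw [Finset.sum_congr rfl fun a _ => this a, ← Finset.sum_div, hb0, zero_div])
  have e : ∀ a, A + 2 * (b a / 2) + c a = A + b a + c a := fun a => by ring
  simp only [e] at h
  exact h

/-- the numerical condition of `genU_tr` at noise `1 / (8 m (1 + c))` -/
theorem noise_num (m : ℕ) (hm : 1 ≤ m) (c : ℝ) (hc : 0 ≤ c) :
    (8 * (m : ℝ) + 2 * (4 * m) ^ (2 * m) * ((1 / (8 * m * (1 + c)) * (1 + c)) ^ 2) ^ (m - 1)) ≤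
      8 * m + 32 := by
  have hm1 : (1 : ℝ) ≤ m := by exact_mod_cast hm
  have e1 : 1 / (8 * (m : ℝ) * (1 + c)) * (1 + c) = 1 / (8 * m) := by
    have : (1 + c) ≠ 0 := by positivity
    field_simp
  rw [e1]
  have key : 2 * (4 * (m : ℝ)) ^ (2 * m) * ((1 / (8 * (m : ℝ))) ^ 2) ^ (m - 1) ≤ 32 := by
    obtain ⟨j, rfl⟩ : ∃ j, m = j + 1 := ⟨m - 1, by omega⟩
    simp only [Nat.add_sub_cancel]
    set M : ℝ := ((j + 1 : ℕ) : ℝ) with hM
    have hM0 : 0 < M := by linarith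
    have e2 : 2 * (4 * M) ^ (2 * (j + 1)) * ((1 / (8 * M)) ^ 2) ^ j = 32 * (M ^ 2 / 4 ^ j) := by
      have e3 : (4 * M) ^ (2 * (j + 1)) = ((4 * M) ^ 2) ^ j * (4 * M) ^ 2 := by
        rw [← pow_mul, ← pow_add]
        rfl
      have e4 : ((4 * M) ^ 2) ^ j * ((1 / (8 * M)) ^ 2) ^ j = (1 / 4) ^ j := by
        rw [← mul_pow]
        congr 1
        field_simp
        norm_num
      calc 2 * (4 * M) ^ (2 * (j + 1)) * ((1 / (8 * M)) ^ 2) ^ j
          = 2 * (4 * M) ^ 2 * (((4 * M) ^ 2) ^ j * ((1 / (8 * M)) ^ 2) ^ j) := by rw [e3]; ring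
        _ = 2 * (4 * M) ^ 2 * (1 / 4) ^ j := by rw [e4]
        _ = 32 * (M ^ 2 / 4 ^ j) := by rw [one_div, inv_pow]; ring
    rw [e2]
    have h5 : M ^ 2 / 4 ^ j ≤ 1 := by
      rw [div_le_one (by positivity)]
      have h6 : ((j : ℝ) + 1) ≤ 2 ^ j := by
        have h := @Nat.lt_two_pow_self j
        have : j + 1 ≤ 2 ^ j := h
        exact_mod_cast this
      have h7 : M = (j : ℝ) + 1 := by rw [hM]; push_cast; ring
      rw [h7]
      calc ((j : ℝ) + 1) ^ 2 ≤ (2 ^ j) ^ 2 := pow_le_pow_left₀ (by positivity) h6 2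
        _ = 4 ^ j := by rw [← pow_mul, mul_comm, pow_mul]; norm_num
    linarith
  linarith

end Vale.Agent.P042.H527
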