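import Vale.Agent.P042.UU.LocE
import Vale.Agent.P042.H527.OneC

set_option autoImplicit false
set_option linter.unusedSectionVars false

/-!
Mixed level inequality through noisy moments of order `2 m` and a union bound.
-/

namespace Vale.Agent.P042.H527

open Finset Vale.Agent.P042.TT.Loc Vale.Agent.P042.UU.Loc

variable {ι : Type} [Fintype ι] [DecidableEq ι]
variable {X : ι → Type} [∀ i, Fintype (X i)] [∀ i, DecidableEq (X i)]

/-- second moment of the noisy function at a masked point -/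
theorem ex_uo_sq (π : ∀ i, X i → ℝ) (hπ1 : ∀ i, ∑ x, π i x = 1) (q : ι → ℝ)
    (F : (∀ i, X i) → ℝ) (T : Finset ι) :
    (ex π fun x => uo q π F (mask T x) ^ 2) =
      ∑ W ∈ T.powerset, (∏ i ∈ W, q i) ^ 2 * nW π W F := by
  have h1 : ∀ x, uo q π F (mask T x) ^ 2 =
      ∑ W' ∈ T.powerset, (∏ i ∈ W', q i) *
        ∑ W ∈ T.powerset, (∏ i ∈ W, q i) * (cW π W F x * cW π W' F x) := by
    intro x
    rw [uo_mask, sq, sum_mul_sum, sum_comm]
    refine sum_congr rfl fun W' _ => ?_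
    rw [mul_sum]
    refine sum_congr rfl fun W _ => ?_
    ring
  simp only [h1]
  rw [ex_sum]
  refine sum_congr rfl fun W' hW' => ?_
  rw [ex_const_mul, ex_sum, Finset.sum_eq_single_of_mem W' hW', ex_const_mul, ← nW_eq π hπ1 W' F]
  · ring
  · intro W _ hne
    rw [ex_const_mul, Vale.Agent.P042.UU.Loc.orth π hπ1 W W' F F hne, mul_zero]

/-- from second moments over random sets to truncated energies -/
theorem en_le_of_sets (π : ∀ i, X i → ℝ) (hπ : ∀ i x, 0 ≤ π i x) (hπ1 : ∀ i, ∑ x, π i x = 1)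
    (s q : ι → ℝ) (hs : ∀ i, 0 ≤ s i) (hs1 : ∀ i, s i ≤ 1) (k N : ℕ)
    (F : (∀ i, X i) → ℝ) (hN : (k : ℝ) + 2 * ∑ i, s i ≤ N) :
    1 / 2 * ∑ W ∈ univ.filter (fun W : Finset ι => W.card ≤ k),
        (∏ i ∈ W, s i * q i ^ 2) * nW π W F ≤
      ∑ T ∈ univ.filter (fun T : Finset ι => T.card ≤ N), Wp s T *
        (ex π fun x => uo q π F (mask T x) ^ 2) := by
  have h1 : ∀ T : Finset ι, Wp s T * (ex π fun x => uo q π F (mask T x) ^ 2) =
      ∑ W : Finset ι, if W ⊆ T then ((∏ i ∈ W, q i) ^ 2 * nW π W F) * Wp s T else 0 := by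
    intro T
    rw [ex_uo_sq π hπ1, mul_sum, ← sum_filter]
    have : T.powerset = univ.filter (fun W : Finset ι => W ⊆ T) := by
      ext W; simp
    rw [this]
    exact sum_congr rfl fun W _ => by ring
  simp only [h1]
  rw [sum_comm, mul_sum]
  refine (sum_le_sum fun W hW => ?_).trans (sum_le_sum_of_subset_of_nonneg (subset_univ _) ?_)
  · have hWk : W.card ≤ k := (mem_filter.1 hW).2
    have hh := half_le s hs hs1 W N (by
      have e2 : (W.card : ℝ) ≤ k := by exact_mod_cast hWk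
      linarith)
    have h0 : 0 ≤ (∏ i ∈ W, q i) ^ 2 * nW π W F :=
      mul_nonneg (sq_nonneg _) (nW_nonneg π hπ hπ1 W F)
    have h3 := mul_le_mul_of_nonneg_left hh h0
    have e1 : ∑ T ∈ univ.filter (fun T : Finset ι => T.card ≤ N),
        (if W ⊆ T then ((∏ i ∈ W, q i) ^ 2 * nW π W F) * Wp s T else 0) =
        ((∏ i ∈ W, q i) ^ 2 * nW π W F) *
          ∑ T ∈ univ.filter (fun T : Finset ι => W ⊆ T ∧ T.card ≤ N), Wp s T := by
      rw [← sum_filter, filter_filter, mul_sum]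
      refine sum_congr ?_ fun T _ => rfl
      ext T
      simp only [mem_filter, mem_univ, true_and]
      tauto
    rw [e1]
    refine le_trans (le_of_eq ?_) h3
    rw [prod_mul_distrib, prod_pow]
    ring
  · intro W _ _
    refine sum_nonneg fun T _ => ?_
    split_ifs
    · exact mul_nonneg (mul_nonneg (sq_nonneg _) (nW_nonneg π hπ hπ1 W F)) (Wp_nonneg s hs hs1 T)
    · exact le_refl _

/-- noisy moment bound over random sets -/
theorem noisy_moment (m : ℕ) (C1 C2 : ℝ) (hm : 1 ≤ m) (hC1 : 0 ≤ C1) (hC2 : 0 ≤ C2)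
    (hone : OneC m C1 C2) (t q r0 c : ι → ℝ) (ht : ∀ i, 0 ≤ t i) (ht1 : ∀ i, t i ≤ 1)
    (hq : ∀ i, 0 ≤ q i) (hr1 : ∀ i, r0 i ≤ 1) (hc : ∀ i, 0 ≤ c i)
    (hC : ∀ i, t i * (q i * q i) * (C1 + C2 * ((q i * (1 + c i)) ^ 2) ^ (m - 1)) ≤ r0 i)
    (π : ∀ i, X i → ℝ) (hπ : ∀ i x, 0 ≤ π i x)
    (hπ1 : ∀ i, ∑ x, π i x = 1) (F : (∀ i, X i) → ℝ) (d : ℕ) (E : ℝ) (hE0 : 0 ≤ E)
    (hE : ∀ (T : Finset ι) (a : ∀ i, X i), T.card ≤ d → (∀ i ∈ T, π i (a i) ≠ 0) →
      TT.Loc.en π r0 (tr π (d - T.card) (restr T a F)) ≤ (∏ i ∈ T, c i) ^ 2 * E) :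
    ∑ T ∈ univ.filter (fun T : Finset ι => T.card ≤ d), Wp t T *
        (ex π fun x => uo q π F (mask T x) ^ (2 * m)) ≤ E ^ m := by
  have h := genU_tr m C1 C2 hm hC1 hC2 hone t q r0 c ht ht1 hq hr1 hc hC π hπ hπ1 F d E hE0 hE
  rw [ex_mask t π hπ1] at h
  refine le_trans (le_trans (le_of_eq ?_) (sum_le_sum_of_subset_of_nonneg
    (filter_subset (fun T : Finset ι => T.card ≤ d) univ) (fun T _ _ => ?_))) h
  · refine sum_congr rfl fun T hT => ?_
    have hTd : T.card ≤ d := (mem_filter.1 hT).2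
    unfold Wp
    congr 2
    funext x
    rw [uo_tr_mask_small π hπ1 _ d F T hTd x]
  · exact mul_nonneg (Wp_nonneg t ht ht1 T) (ex_nonneg π hπ _ fun x =>
      (even_two_mul m).pow_nonneg _)

theorem sum_Wp (s : ι → ℝ) : ∑ T : Finset ι, Wp s T = 1 := by
  have h := sum_Wp_sup s ∅
  simpa using h

/-- **Mixed level inequality.**  `Fs sg` are the densities on the top pins `sg` (any real
functions with controlled truncated local energies), `Fk ka` the functions to be estimated; the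
level inequality `hlev` at a masked point `(T, x)` is only needed relative to the size `A` of the
noisy densities `Fs sg` at this point. -/
theorem mix_nv (m : ℕ) (C1 C2 : ℝ) (hm : 1 ≤ m) (hC1 : 0 ≤ C1) (hC2 : 0 ≤ C2)
    (hone : OneC m C1 C2) (t q r0 c : ι → ℝ) (ht : ∀ i, 0 ≤ t i) (ht1 : ∀ i, t i ≤ 1)
    (hq : ∀ i, 0 ≤ q i) (hr1 : ∀ i, r0 i ≤ 1) (hc : ∀ i, 0 ≤ c i)
    (hC : ∀ i, t i * (q i * q i) * (C1 + C2 * ((q i * (1 + c i)) ^ 2) ^ (m - 1)) ≤ r0 i)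
    (π : ∀ i, X i → ℝ) (hπ : ∀ i x, 0 ≤ π i x) (hπ1 : ∀ i, ∑ x, π i x = 1)
    (kk d : ℕ) (hd : (kk : ℝ) + 2 * ∑ i, t i ≤ d)
    {Sg : Type} (SG : Finset Sg) (Fs : Sg → (∀ i, X i) → ℝ) (E Ga : Sg → ℝ)
    (hGa : ∀ sg ∈ SG, 0 < Ga sg) (hE0 : ∀ sg ∈ SG, 0 ≤ E sg)
    (hE : ∀ sg ∈ SG, ∀ (T : Finset ι) (a : ∀ i, X i), T.card ≤ d → (∀ i ∈ T, π i (a i) ≠ 0) →
      TT.Loc.en π r0 (tr π (d - T.card) (restr T a (Fs sg))) ≤ (∏ i ∈ T, c i) ^ 2 * E sg)
    {Ka : Type} (KA : Finset Ka) (v : Ka → ℝ) (hv : ∀ ka ∈ KA, 0 ≤ v ka)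
    (Fk : Ka → (∀ i, X i) → ℝ) (ε : ℝ) (hε : 0 ≤ ε)
    (hlev : ∀ (T : Finset ι) (x : ∀ i, X i), T.card ≤ d → (∀ i ∈ T, π i (x i) ≠ 0) →
      ∀ A : ℝ, 0 ≤ A → (∀ sg ∈ SG, uo q π (Fs sg) (mask T x) ≤ A * Ga sg) →
      ∑ ka ∈ KA, v ka * uo q π (Fk ka) (mask T x) ^ 2 ≤ ε * (A ^ 2 + 1)) :
    ∑ W ∈ univ.filter (fun W : Finset ι => W.card ≤ kk),
      (∏ i ∈ W, t i * q i ^ 2) * ∑ ka ∈ KA, v ka * nW π W (Fk ka) ≤
      2 * ε * ((∑ sg ∈ SG, (E sg / Ga sg ^ 2) ^ m) ^ ((m : ℝ)⁻¹) + 1) := by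
  classical
  have h2m : 2 * m ≠ 0 := by omega
  have hm0 : m ≠ 0 := by omega
  -- the maximal function
  set S : Finset ι → (∀ i, X i) → ℝ := fun T x =>
    ∑ sg ∈ SG, (uo q π (Fs sg) (mask T x) / Ga sg) ^ (2 * m) with hS
  have hS0 : ∀ T x, 0 ≤ S T x := fun T x => sum_nonneg fun sg _ => (even_two_mul m).pow_nonneg _
  set A : Finset ι → (∀ i, X i) → ℝ := fun T x => (S T x) ^ (((2 * m : ℕ) : ℝ)⁻¹) with hA
  have hA0 : ∀ T x, 0 ≤ A T x := fun T x => Real.rpow_nonneg (hS0 T x) _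
  have hAp : ∀ T x, A T x ^ (2 * m) = S T x := fun T x =>
    Real.rpow_inv_natCast_pow (hS0 T x) h2m
  have hAmax : ∀ T x, ∀ sg ∈ SG, uo q π (Fs sg) (mask T x) ≤ A T x * Ga sg := by
    intro T x sg hsg
    rw [← div_le_iff₀ (hGa sg hsg)]
    apply le_of_abs_le
    have h1 : |uo q π (Fs sg) (mask T x) / Ga sg| ^ (2 * m) ≤ A T x ^ (2 * m) := by
      rw [hAp, (even_two_mul m).pow_abs]
      exact single_le_sum (f := fun sg => (uo q π (Fs sg) (mask T x) / Ga sg) ^ (2 * m))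
        (fun sg _ => (even_two_mul m).pow_nonneg _) hsg
    exact le_of_pow_le_pow_left₀ h2m (hA0 T x) h1
  -- weights of the pairs
  set p : Finset ι × (∀ i, X i) → ℝ := fun z => Wp t z.1 * wt π z.2 with hp
  have hp0 : ∀ z, 0 ≤ p z := fun z => mul_nonneg (Wp_nonneg t ht ht1 _) (wt_nonneg π hπ _)
  have hwt1 : ∑ x, wt π x = 1 := by
    have h := ex_const π hπ1 1
    unfold ex at h
    simpa using h
  have hp1 : ∑ z : Finset ι × (∀ i, X i), p z = 1 := by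
    rw [Fintype.sum_prod_type]
    simp only [hp, ← mul_sum, hwt1, mul_one]
    exact sum_Wp t
  set a : Finset ι × (∀ i, X i) → ℝ := fun z => if z.1.card ≤ d then A z.1 z.2 ^ 2 else 0 with ha
  have ha0 : ∀ z, 0 ≤ a z := by
    intro z
    simp only [ha]
    split_ifs
    · exact sq_nonneg _
    · exact le_refl _
  set Z : ℝ := ∑ z : Finset ι × (∀ i, X i), p z * a z with hZ
  have hZ0 : 0 ≤ Z := sum_nonneg fun z _ => mul_nonneg (hp0 z) (ha0 z)
  have hZm : Z ^ m ≤ ∑ sg ∈ SG, (E sg / Ga sg ^ 2) ^ m := by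
    refine (Real.pow_arith_mean_le_arith_mean_pow univ p a (fun z _ => hp0 z) hp1
      (fun z _ => ha0 z) m).trans ?_
    have e1 : ∀ z : Finset ι × (∀ i, X i), p z * a z ^ m =
        ∑ sg ∈ SG, (1 / Ga sg ^ (2 * m)) * (if z.1.card ≤ d then
          Wp t z.1 * (wt π z.2 * uo q π (Fs sg) (mask z.1 z.2) ^ (2 * m)) else 0) := by
      intro z
      by_cases hz : z.1.card ≤ d
      · simp only [ha, hp, hz, if_true]
        rw [← pow_mul, hAp, hS, mul_sum]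
        refine sum_congr rfl fun sg _ => ?_
        rw [div_pow]
        ring
      · simp only [ha, hz, if_false, zero_pow hm0, mul_zero, sum_const_zero]
    simp only [e1]
    rw [sum_comm]
    refine sum_le_sum fun sg hsg => ?_
    rw [← mul_sum]
    have h2 := noisy_moment m C1 C2 hm hC1 hC2 hone t q r0 c ht ht1 hq hr1 hc hC π hπ hπ1
      (Fs sg) d (E sg) (hE0 sg hsg) (hE sg hsg)
    have e2 : ∑ z : Finset ι × (∀ i, X i), (if z.1.card ≤ d then
          Wp t z.1 * (wt π z.2 * uo q π (Fs sg) (mask z.1 z.2) ^ (2 * m)) else 0) =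
        ∑ T ∈ univ.filter (fun T : Finset ι => T.card ≤ d), Wp t T *
          (ex π fun x => uo q π (Fs sg) (mask T x) ^ (2 * m)) := by
      rw [Fintype.sum_prod_type, sum_filter]
      refine sum_congr rfl fun T _ => ?_
      by_cases hT : T.card ≤ d
      · simp only [hT, if_true]
        unfold ex
        rw [mul_sum]
      · simp only [hT, if_false, sum_const_zero]
    rw [e2]
    have h3 : 0 < Ga sg ^ (2 * m) := pow_pos (hGa sg hsg) _
    rw [div_pow, ← pow_mul, one_div, inv_mul_eq_div]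
    exact div_le_div_of_nonneg_right h2 h3.le
  have hZle : Z ≤ (∑ sg ∈ SG, (E sg / Ga sg ^ 2) ^ m) ^ ((m : ℝ)⁻¹) := by
    rw [← Real.pow_rpow_inv_natCast hZ0 hm0]
    exact Real.rpow_le_rpow (pow_nonneg hZ0 _) hZm (by positivity)
  -- the main inequality
  have hmain : ∑ ka ∈ KA, v ka * ∑ T ∈ univ.filter (fun T : Finset ι => T.card ≤ d), Wp t T *
        (ex π fun x => uo q π (Fk ka) (mask T x) ^ 2) ≤ ε * (Z + 1) := by
    have e1 : ∑ ka ∈ KA, v ka * ∑ T ∈ univ.filter (fun T : Finset ι => T.card ≤ d), Wp t T *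
        (ex π fun x => uo q π (Fk ka) (mask T x) ^ 2) =
        ∑ z : Finset ι × (∀ i, X i), p z * (if z.1.card ≤ d then
          ∑ ka ∈ KA, v ka * uo q π (Fk ka) (mask z.1 z.2) ^ 2 else 0) := by
      rw [Fintype.sum_prod_type]
      have e2 : ∀ T : Finset ι, ∑ x, p (T, x) * (if T.card ≤ d then
          ∑ ka ∈ KA, v ka * uo q π (Fk ka) (mask T x) ^ 2 else 0) =
          if T.card ≤ d then ∑ ka ∈ KA, v ka * (Wp t T *
            (ex π fun x => uo q π (Fk ka) (mask T x) ^ 2)) else 0 := by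
        intro T
        by_cases hT : T.card ≤ d
        · simp only [hT, if_true, hp]
          unfold ex
          simp only [mul_sum]
          rw [sum_comm]
          refine sum_congr rfl fun ka _ => sum_congr rfl fun x _ => ?_
          ring
        · simp only [hT, if_false, mul_zero, sum_const_zero]
      simp only [e2]
      rw [← sum_filter, sum_comm]
      refine sum_congr rfl fun ka _ => ?_
      rw [mul_sum]
    rw [e1]
    have h1 : ∀ z : Finset ι × (∀ i, X i), p z * (if z.1.card ≤ d then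
          ∑ ka ∈ KA, v ka * uo q π (Fk ka) (mask z.1 z.2) ^ 2 else 0) ≤
          p z * (ε * (a z + 1)) := by
      intro z
      by_cases hwz : wt π z.2 = 0
      · simp only [hp, hwz, mul_zero, zero_mul, le_refl]
      · apply mul_le_mul_of_nonneg_left _ (hp0 z)
        by_cases hz : z.1.card ≤ d
        · simp only [ha, hz, if_true]
          apply hlev z.1 z.2 hz _ (A z.1 z.2) (hA0 _ _) (hAmax _ _)
          intro i _ h0
          exact hwz (prod_eq_zero (mem_univ i) h0)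
        · simp only [ha, hz, if_false]
          nlinarith
    refine (sum_le_sum fun z _ => h1 z).trans (le_of_eq ?_)
    have e3 : ∀ z : Finset ι × (∀ i, X i), p z * (ε * (a z + 1)) = ε * (p z * a z) + ε * p z :=
      fun z => by ring
    simp only [e3]
    rw [sum_add_distrib, ← mul_sum, ← mul_sum, hp1, ← hZ]
    ring
  -- conclusion
  have hlow : 1 / 2 * ∑ W ∈ univ.filter (fun W : Finset ι => W.card ≤ kk),
      (∏ i ∈ W, t i * q i ^ 2) * ∑ ka ∈ KA, v ka * nW π W (Fk ka) ≤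
      ∑ ka ∈ KA, v ka * ∑ T ∈ univ.filter (fun T : Finset ι => T.card ≤ d), Wp t T *
        (ex π fun x => uo q π (Fk ka) (mask T x) ^ 2) := by
    have e1 : 1 / 2 * ∑ W ∈ univ.filter (fun W : Finset ι => W.card ≤ kk),
      (∏ i ∈ W, t i * q i ^ 2) * ∑ ka ∈ KA, v ka * nW π W (Fk ka) =
      ∑ ka ∈ KA, v ka * (1 / 2 * ∑ W ∈ univ.filter (fun W : Finset ι => W.card ≤ kk),
        (∏ i ∈ W, t i * q i ^ 2) * nW π W (Fk ka)) := by
      simp only [mul_sum]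
      rw [sum_comm]
      refine sum_congr rfl fun ka _ => sum_congr rfl fun W _ => ?_
      ring
    rw [e1]
    exact sum_le_sum fun ka hka => mul_le_mul_of_nonneg_left
      (en_le_of_sets π hπ hπ1 t q ht ht1 kk d (Fk ka) hd) (hv ka hka)
  have h3 : ε * (Z + 1) ≤ ε * ((∑ sg ∈ SG, (E sg / Ga sg ^ 2) ^ m) ^ ((m : ℝ)⁻¹) + 1) :=
    mul_le_mul_of_nonneg_left (by linarith) hε
  linarith [hlow.trans (hmain.trans h3)]

/-- `mix_nv` with the constants of `oneC_poly`: noise `1 / (8 m (1 + c i))`, any rates `s i` of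
the conclusion with `(8 m + 32) s i ≤ r0 i`. -/
theorem mix_nv_poly (m : ℕ) (hm : 1 ≤ m) (s r0 c : ι → ℝ) (hs : ∀ i, 0 ≤ s i)
    (hr1 : ∀ i, r0 i ≤ 1) (hc : ∀ i, 0 ≤ c i) (hsr : ∀ i, (8 * m + 32) * s i ≤ r0 i)
    (hs1 : ∀ i, (8 * m * (1 + c i)) ^ 2 * s i ≤ 1)
    (π : ∀ i, X i → ℝ) (hπ : ∀ i x, 0 ≤ π i x) (hπ1 : ∀ i, ∑ x, π i x = 1)
    (kk d : ℕ) (hd : (kk : ℝ) + 2 * ∑ i, (8 * m * (1 + c i)) ^ 2 * s i ≤ d)
    {Sg : Type} (SG : Finset Sg) (Fs : Sg → (∀ i, X i) → ℝ) (E Ga : Sg → ℝ)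
    (hGa : ∀ sg ∈ SG, 0 < Ga sg) (hE0 : ∀ sg ∈ SG, 0 ≤ E sg)
    (hE : ∀ sg ∈ SG, ∀ (T : Finset ι) (a : ∀ i, X i), T.card ≤ d → (∀ i ∈ T, π i (a i) ≠ 0) →
      TT.Loc.en π r0 (tr π (d - T.card) (restr T a (Fs sg))) ≤ (∏ i ∈ T, c i) ^ 2 * E sg)
    {Ka : Type} (KA : Finset Ka) (v : Ka → ℝ) (hv : ∀ ka ∈ KA, 0 ≤ v ka)
    (Fk : Ka → (∀ i, X i) → ℝ) (ε : ℝ) (hε : 0 ≤ ε)
    (hlev : ∀ (T : Finset ι) (x : ∀ i, X i), T.card ≤ d → (∀ i ∈ T, π i (x i) ≠ 0) →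
      ∀ A : ℝ, 0 ≤ A →
      (∀ sg ∈ SG, uo (fun i => 1 / (8 * m * (1 + c i))) π (Fs sg) (mask T x) ≤ A * Ga sg) →
      ∑ ka ∈ KA, v ka * uo (fun i => 1 / (8 * m * (1 + c i))) π (Fk ka) (mask T x) ^ 2 ≤
        ε * (A ^ 2 + 1)) :
    ∑ W ∈ univ.filter (fun W : Finset ι => W.card ≤ kk),
      (∏ i ∈ W, s i) * ∑ ka ∈ KA, v ka * nW π W (Fk ka) ≤
      2 * ε * ((∑ sg ∈ SG, (E sg / Ga sg ^ 2) ^ m) ^ ((m : ℝ)⁻¹) + 1) := by
  have hm1 : (1 : ℝ) ≤ m := by exact_mod_cast hm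
  have hu : ∀ i, 0 < 8 * (m : ℝ) * (1 + c i) := fun i => by
    have := hc i
    positivity
  have e1 : ∀ i, (8 * (m : ℝ) * (1 + c i)) ^ 2 * s i * (1 / (8 * m * (1 + c i))) ^ 2 = s i := by
    intro i
    have h5 := (hu i).ne'
    generalize 8 * (m : ℝ) * (1 + c i) = u at h5 ⊢
    field_simp
  have h := mix_nv m (8 * m) (2 * (4 * m) ^ (2 * m)) hm (by positivity) (by positivity)
    (oneC_poly m hm) (fun i => (8 * m * (1 + c i)) ^ 2 * s i) (fun i => 1 / (8 * m * (1 + c i)))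
    r0 c (fun i => mul_nonneg (sq_nonneg _) (hs i)) hs1 (fun i => (div_pos one_pos (hu i)).le) hr1
    hc (by
      intro i
      have h1 := noise_num m hm (c i) (hc i)
      have h2 : (8 * (m : ℝ) * (1 + c i)) ^ 2 * s i * (1 / (8 * m * (1 + c i)) *
          (1 / (8 * m * (1 + c i)))) = s i := by
        rw [← sq]
        exact e1 i
      rw [h2]
      have h3 := mul_le_mul_of_nonneg_left h1 (hs i)
      linarith [hsr i]) π hπ hπ1 kk d hd SG Fs E Ga hGa hE0 hE KA v hv Fk ε hε hlev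
  simp only [e1] at h
  exact h

/-- second moments over random sets (no noise) give the truncated energies -/
theorem en_of_moments (π : ∀ i, X i → ℝ) (hπ : ∀ i x, 0 ≤ π i x) (hπ1 : ∀ i, ∑ x, π i x = 1)
    (s : ι → ℝ) (hs : ∀ i, 0 ≤ s i) (hs1 : ∀ i, s i ≤ 1) (k N : ℕ)
    (F : (∀ i, X i) → ℝ) (hN : (k : ℝ) + 2 * ∑ i, s i ≤ N) (B : ℝ)
    (hB : ∑ T ∈ univ.filter (fun T : Finset ι => T.card ≤ N), Wp s T *
        (ex π fun x => cexp π T F x ^ 2) ≤ B) :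
    TT.Loc.en π s (tr π k F) ≤ 2 * B := by
  have h := en_le_of_sets π hπ hπ1 s (fun _ => 1) hs hs1 k N F hN
  rw [en_tr π hπ1]
  have e1 : ∀ (T : Finset ι), (ex π fun x => uo (fun _ => 1) π F (mask T x) ^ 2) =
      ex π fun x => cexp π T F x ^ 2 := by
    intro T
    congr 1
    funext x
    rw [uo_one_mask π hπ1]
  simp only [e1, one_pow, mul_one] at h
  linarith

end Vale.Agent.P042.H527
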