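import Vale.Agent.P042.H527.MassOm
import Vale.Agent.P042.TT.LocGen

set_option autoImplicit false
set_option linter.unusedSectionVars false

/-!
Level inequality for a bounded weight times the weight `om` of a noisy masked point.
-/

namespace Vale.Agent.P042.H527

open Finset Vale.Agent.P042 Vale.Agent.P042.SS Vale.Agent.P042.SS.LI Vale.Agent.P042.SS.LIG
open Vale.Agent.P042.TT.Loc

variable {ι : Type} [Fintype ι] [DecidableEq ι] {X : ι → Type} [∀ i, DecidableEq (X i)]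

/-- the factor `Zom` has mean at most one -/
theorem ex_Zom_le [∀ i, Fintype (X i)] (prm : ι → ℕ) (q : ι → ℝ) (π : ∀ i, X i → ℝ)
    (T : Finset ι) (hcard : ∀ i ∈ T, Fintype.card (X i) ≤ prm i) (hprm : ∀ i ∈ T, 1 ≤ prm i)
    (hq0 : ∀ i ∈ T, 0 ≤ q i) (hq1 : ∀ i ∈ T, q i ≤ 1) (hπ : ∀ i a, 0 ≤ π i a)
    (hπ1 : ∀ i, ∑ a, π i a = 1) : ex π (Zom prm q π T) ≤ 1 := by
  unfold ex wt Zom
  have e1 : ∀ x : ∀ i, X i, (∏ i, π i (x i)) * ∏ i ∈ T, ((1 - q i) + q i / (prm i * π i (x i))) =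
      ∏ i, (π i (x i) * (if i ∈ T then (1 - q i) + q i / (prm i * π i (x i)) else 1)) := by
    intro x
    rw [prod_mul_distrib]
    congr 1
    rw [Finset.prod_ite_mem, univ_inter]
  simp only [e1]
  rw [← prod_sum_pi (fun i a => π i a * (if i ∈ T then (1 - q i) + q i / (prm i * π i a) else 1))]
  refine prod_le_one (fun i _ => sum_nonneg fun a _ => mul_nonneg (hπ i a) ?_) fun i _ => ?_
  · split_ifs with hi
    · have h1 := hq0 i hi
      have h2 := hq1 i hi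
      have h3 : 0 ≤ q i / (prm i * π i a) :=
        div_nonneg h1 (mul_nonneg (Nat.cast_nonneg _) (hπ i a))
      linarith
    · norm_num
  · by_cases hi : i ∈ T
    · simp only [hi, if_true]
      have hp : (0:ℝ) < prm i := by exact_mod_cast hprm i hi
      have h2 : ∀ a, π i a * ((1 - q i) + q i / (prm i * π i a)) ≤
          (1 - q i) * π i a + q i / prm i := by
        intro a
        rcases (hπ i a).eq_or_lt with h0 | h0
        · rw [← h0]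
          have := div_nonneg (hq0 i hi) hp.le
          simpa using this
        · apply le_of_eq
          field_simp
      refine (sum_le_sum fun a _ => h2 a).trans ?_
      rw [sum_add_distrib, ← mul_sum, hπ1, sum_const, nsmul_eq_mul, card_univ]
      have h3 : (Fintype.card (X i) : ℝ) * (q i / prm i) ≤ prm i * (q i / prm i) :=
        mul_le_mul_of_nonneg_right (by exact_mod_cast hcard i hi) (div_nonneg (hq0 i hi) hp.le)
      have h4 : (prm i : ℝ) * (q i / prm i) = q i := by field_simp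
      linarith
    · simp only [hi, if_false, mul_one, hπ1, le_refl]

theorem Som_le (prm : ι → ℕ) (q : ι → ℝ) (π : ∀ i, X i → ℝ) (T : Finset ι) (x : ∀ i, X i)
    (hprm : ∀ i ∈ T, 1 ≤ prm i) (hq0 : ∀ i ∈ T, 0 ≤ q i) (hq1 : ∀ i ∈ T, q i ≤ 1)
    (hπ : ∀ i ∈ T, 0 < π i (x i)) :
    Som q π T x ≤ (∏ i ∈ T, (prm i : ℝ)) * Zom prm q π T x := by
  unfold Som Zom
  rw [← prod_mul_distrib]
  refine prod_le_prod (fun i hi => ?_) fun i hi => ?_
  · have h1 := hq0 i hi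
    have h2 := hq1 i hi
    have h3 := div_nonneg h1 (hπ i hi).le
    linarith
  · have h1 := hq0 i hi
    have h2 := hq1 i hi
    have h3 := hπ i hi
    have hp : (1:ℝ) ≤ prm i := by exact_mod_cast hprm i hi
    have e : (prm i : ℝ) * ((1 - q i) + q i / (prm i * π i (x i))) =
        prm i * (1 - q i) + q i / π i (x i) := by
      field_simp
    rw [e]
    nlinarith

/-- Level inequality for `G * om`, `0 ≤ G ≤ Gm`. -/
theorem li3_om (red : ℤ → ∀ i, X i) (q : ι → ℝ) (π : ∀ i, X i → ℝ) (T : Finset ι) (x : ∀ i, X i)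
    (prm : ι → ℕ) (hprm : ∀ i ∈ T, 1 ≤ prm i)
    (hco : ∀ i ∈ T, ∀ j ∈ T, i ≠ j → Nat.Coprime (prm i) (prm j))
    (hred : ∀ i ∈ T, ∀ n n' : ℤ, red n i = red n' i ↔ n ≡ n' [ZMOD (prm i : ℕ)])
    (hx : ∀ i ∈ T, ∃ n : ℤ, red n i = x i)
    (hq0 : ∀ i ∈ T, 0 ≤ q i) (hq1 : ∀ i ∈ T, q i ≤ 1) (hπ : ∀ i ∈ T, 0 < π i (x i))
    (P : Finset ℕ) (g : ℕ → ℕ) (W D m N1 : ℕ) (β Gm : ℝ) (ρ b : ℕ → ℝ)
    (G : ℤ → ℝ) (y : ℤ) (Fm : Finset (Finset ℕ)) (Qs : Finset ℕ)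
    (hP : ∀ p ∈ P, p.Prime) (hW : 1 ≤ W) (hm : 2 ≤ m) (hβ : 0 < β) (hGm : 0 < Gm)
    (hρ0 : ∀ p ∈ P, 0 ≤ ρ p) (hb : ∀ p ∈ P, 1 ≤ b p)
    (hρ : ∀ p ∈ P, 12 * m * ρ p * (1 + b p) ≤ 1)
    (hG0 : ∀ n, 0 ≤ G n) (hG1 : ∀ n, G n ≤ Gm)
    (hFmd : ∀ S ∈ Fm, ∀ T, T ⊆ S → T ∈ Fm)
    (hFmD : ∀ S ∈ Fm, ∏ p ∈ S, p ^ g p ≤ D) (hN1pos : 1 ≤ N1)
    (hcopP : ∀ i ∈ T, ∀ p ∈ P, Nat.Coprime p (prm i))
    (hcopW : ∀ i ∈ T, Nat.Coprime W (prm i))
    (hcap : (∏ i ∈ T, prm i) * (W * D ^ (2 * m + 1) * Fm.card ^ (2 * m)) ≤ N1)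
    (hmass : ∀ S ∈ Fm, ∀ z : ℤ, mass (fun n => G n * om red q π T x n) y N1
      (W * ∏ p ∈ S, p ^ g p) z ≤ β * (∏ p ∈ S, b p) * (N1 / ((W * ∏ p ∈ S, p ^ g p : ℕ) : ℝ)))
    (hQs : ∀ q ∈ Qs, 1 ≤ q ∧ goodg P g W q ∧ Ug W q ∈ Fm) :
    ∑ k ∈ Qs, (∏ p ∈ Ug W k, ρ p) * enG (fun n => G n * om red q π T x n) y N1 k ≤
      (N1 : ℝ) ^ 2 * (2 * β ^ 2 * (1 + (Gm * Zom prm q π T x / β) ^ (1 / (m : ℝ)))) := by
  have hZ := Zom_pos q π T x prm hprm hq0 hq1 hπ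
  set Z := Zom prm q π T x with hZdef
  have hS := Som_le prm q π T x hprm hq0 hq1 hπ
  have hSom0 : 0 ≤ Som q π T x := prod_nonneg fun i hi => by
    have h1 := hq0 i hi
    have h2 := hq1 i hi
    have h3 := div_nonneg h1 (hπ i hi).le
    linarith
  apply li3 P g W D m N1 β (Gm * Z) (Som q π T x / Z) ρ b (fun n => G n * om red q π T x n)
    (fun n => Z⁻¹ * om red q π T x n) y Fm Qs hP hW hm hβ (mul_pos hGm hZ) hρ0 hb hρ
    (fun n => mul_nonneg (hG0 n) (om_nonneg red q π T x hq0 hq1 hπ n))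
    (fun n => by
      have h1 := om_nonneg red q π T x hq0 hq1 hπ n
      have e : Gm * Z * (Z⁻¹ * om red q π T x n) = Gm * om red q π T x n := by
        field_simp
      rw [e]
      exact mul_le_mul_of_nonneg_right (hG1 n) h1) hFmd hFmD hN1pos
    (div_nonneg hSom0 hZ.le) _ _ hmass hQs
  · intro S hSP _ z
    have hpos : 1 ≤ W * ∏ p ∈ S, p ^ g p :=
      Nat.mul_pos (by omega) (prod_pos fun p hp => pow_pos (hP p (hSP hp)).pos _)
    have h := mass_om red q π T x prm hprm hco hred hx hq0 hq1 hπ y N1 _ hpos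
      (by
        intro i hi
        apply Nat.Coprime.mul_left (hcopW i hi)
        apply Nat.Coprime.prod_left
        intro p hp
        exact (hcopP i hi p (hSP hp)).pow_left _) z
    rw [mass_smul]
    set d : ℕ := W * ∏ p ∈ S, p ^ g p
    rw [← hZdef] at h
    have e : Z⁻¹ * mass (om red q π T x) y N1 d z - N1 / (d : ℝ) =
        Z⁻¹ * (mass (om red q π T x) y N1 d z - Z * (N1 / (d : ℝ))) := by
      field_simp
    rw [e, abs_mul, abs_of_nonneg (inv_nonneg.2 hZ.le), ← div_eq_inv_mul]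
    exact div_le_div_of_nonneg_right h hZ.le
  · have h1 : Som q π T x / Z ≤ ∏ i ∈ T, (prm i : ℝ) := by
      rw [div_le_iff₀ hZ]
      exact hS
    have h2 : (0:ℝ) ≤ (W : ℝ) * (D : ℝ) ^ (2 * m + 1) * (Fm.card : ℝ) ^ (2 * m) := by positivity
    refine (mul_le_mul_of_nonneg_right h1 h2).trans ?_
    have h3 : (((∏ i ∈ T, prm i) * (W * D ^ (2 * m + 1) * Fm.card ^ (2 * m)) : ℕ) : ℝ) ≤ N1 := by
      exact_mod_cast hcap
    push_cast at h3
    exact h3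

end Vale.Agent.P042.H527
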