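import Vale.Agent.P042.SS2.Li2

set_option autoImplicit false

/-!
Level inequality for WEIGHTS on integer windows: as `li2_holds`, but the weight is bounded by an
arbitrary majorant `ν` which is equidistributed modulo the numbers that occur.
-/

namespace Vale.Agent.P042.H527

open Finset Vale.Agent.P042 Vale.Agent.P042.SS Vale.Agent.P042.SS.LI Vale.Agent.P042.SS.LIG

theorem li3_one (P : Finset ℕ) (g : ℕ → ℕ) (W D m N1 : ℕ) (β E : ℝ) (ρ b : ℕ → ℝ)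
    (G ν : ℤ → ℝ) (y : ℤ) (Fm : Finset (Finset ℕ)) (Qs : Finset ℕ)
    (hP : ∀ p ∈ P, p.Prime) (hW : 1 ≤ W) (hm : 2 ≤ m) (hβ : 0 < β)
    (hρ0 : ∀ p ∈ P, 0 ≤ ρ p) (hb : ∀ p ∈ P, 1 ≤ b p)
    (hρ : ∀ p ∈ P, 12 * m * ρ p * (1 + b p) ≤ 1)
    (hG0 : ∀ n, 0 ≤ G n) (hG1 : ∀ n, G n ≤ ν n)
    (hFmd : ∀ S ∈ Fm, ∀ T, T ⊆ S → T ∈ Fm)
    (hFmD : ∀ S ∈ Fm, ∏ p ∈ S, p ^ g p ≤ D) (hN1pos : 1 ≤ N1)
    (hE0 : 0 ≤ E)
    (hν : ∀ S, S ⊆ P → W * ∏ p ∈ S, p ^ g p ≤ W * D ^ (2 * m + 1) → ∀ x : ℤ,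
      |mass ν y N1 (W * ∏ p ∈ S, p ^ g p) x - N1 / ((W * ∏ p ∈ S, p ^ g p : ℕ) : ℝ)| ≤ E)
    (hN1 : E * (W * D ^ (2 * m + 1) * Fm.card ^ (2 * m)) ≤ N1)
    (hmass : ∀ S ∈ Fm, ∀ x : ℤ, mass G y N1 (W * ∏ p ∈ S, p ^ g p) x ≤
      β * (∏ p ∈ S, b p) * (N1 / ((W * ∏ p ∈ S, p ^ g p : ℕ) : ℝ)))
    (hQs : ∀ q ∈ Qs, 1 ≤ q ∧ goodg P g W q ∧ Ug W q ∈ Fm) :
    ∑ q ∈ Qs, (∏ p ∈ Ug W q, ρ p) * enG G y N1 q ≤
      (N1 : ℝ) ^ 2 * (2 * β ^ 2 * (1 + β ^ (-(1 / (m : ℝ))))) := by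
  classical
  rcases Fm.eq_empty_or_nonempty with hemp | ⟨S1, hS1⟩
  · have hQe : Qs = ∅ := by
      rw [Finset.eq_empty_iff_forall_notMem]
      intro q hq
      have := (hQs q hq).2.2
      rw [hemp] at this
      exact Finset.notMem_empty _ this
    rw [hQe, Finset.sum_empty]
    have hrβ : 0 < β ^ (-(1 / (m : ℝ))) := Real.rpow_pos_of_pos hβ _
    positivity
  have hempty : ∅ ∈ Fm := hFmd S1 hS1 ∅ (Finset.empty_subset _)
  have hD1 : 1 ≤ D := by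
    have := hFmD ∅ hempty
    simpa using this
  have hcard1 : 1 ≤ Fm.card := Finset.card_pos.2 ⟨_, hempty⟩
  have hPpos : 0 < bigG W P g := bigG_pos hP hW
  have : NeZero (bigG W P g) := ⟨hPpos.ne'⟩
  have hN1r : (0 : ℝ) < N1 := by exact_mod_cast hN1pos
  have hPr : (0 : ℝ) < bigG W P g := by exact_mod_cast hPpos
  set J := Finset.Ioc y (y + N1) with hJ
  have hmodpos : ∀ S : Finset P, 0 < W * ∏ p ∈ S, (p : ℕ) ^ g p := fun S =>
    Nat.mul_pos (by omega) (prodG_pos hP S)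
  -- the family on the subtype
  set Fs : Finset (Finset P) :=
    Finset.univ.filter (fun S => S.map (Function.Embedding.subtype _) ∈ Fm) with hFs
  have hFsmem : ∀ S : Finset P, S ∈ Fs ↔ S.map (Function.Embedding.subtype _) ∈ Fm := by
    intro S
    rw [hFs, Finset.mem_filter]
    exact ⟨fun h => h.2, fun h => ⟨Finset.mem_univ _, h⟩⟩
  have hFsd : ∀ S ∈ Fs, ∀ T, T ⊆ S → T ∈ Fs := by
    intro S hS T hT
    rw [hFsmem] at hS ⊢
    exact hFmd _ hS _ (Finset.map_subset_map.2 hT)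
  have hFscard : Fs.card ≤ Fm.card := by
    apply Finset.card_le_card_of_injOn (fun S : Finset P => S.map (Function.Embedding.subtype _))
    · intro S hS
      exact (hFsmem S).1 hS
    · intro S _ S' _ h
      exact Finset.map_injective _ h
  have hFsD : ∀ S ∈ Fs, ∏ p ∈ S, (p : ℕ) ^ g p ≤ D := by
    intro S hS
    rw [← prod_map_sub]
    exact hFmD _ ((hFsmem S).1 hS)
  have hlev := level_genG (HG W P g) (cg (bigG W P g) N1 G J)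
    (cg (bigG W P g) N1 ν J) Fs hFsd m β (E * ((W : ℝ) * (D : ℝ) ^ (2 * m + 1)) / N1)
    (fun p : P => ρ p) (fun p : P => b p)
    hm (fun p => hρ0 p p.2) (fun p => hb p p.2) (fun p => hρ p p.2) hβ
    (by
      intro x
      unfold cg
      exact mul_nonneg (by positivity) (Finset.sum_nonneg fun _ _ => hG0 _))
    (by
      intro x
      unfold cg
      apply mul_le_mul_of_nonneg_left _ (by positivity)
      exact Finset.sum_le_sum fun _ _ => hG1 _)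
    (by
      intro S hS x
      rw [EE_cg hP]
      have h1 := hmass _ ((hFsmem S).1 hS) (x.val : ℤ)
      have hbm : ∏ p ∈ S.map (Function.Embedding.subtype _), b p = ∏ p ∈ S, b (p : ℕ) := by
        rw [Finset.prod_map]; rfl
      rw [prod_map_sub, hbm] at h1
      unfold mass at h1
      rw [← hJ] at h1
      have hmr : (0 : ℝ) < (W * ∏ p ∈ S, (p : ℕ) ^ g p : ℕ) := by
        exact_mod_cast hmodpos S
      calc _ ≤ ((W * ∏ p ∈ S, (p : ℕ) ^ g p : ℕ) : ℝ) / N1 *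
            (β * (∏ p ∈ S, b (p : ℕ)) * (N1 / (W * ∏ p ∈ S, (p : ℕ) ^ g p : ℕ))) :=
            mul_le_mul_of_nonneg_left h1 (by positivity)
        _ = (∏ p ∈ S, b (p : ℕ)) * β := by field_simp)
    (by
      intro t ht x
      rw [EE_cg hP]
      have h3 : W * ∏ p ∈ Finset.univ.sup t, (p : ℕ) ^ g p ≤ W * D ^ (2 * m + 1) :=
        Nat.mul_le_mul_left _ (prod_sup_le hP D t fun i => hFsD _ (ht i))
      have h5 := hν ((Finset.univ.sup t).map (Function.Embedding.subtype _))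
        (by
          intro p hp
          rw [Finset.mem_map] at hp
          obtain ⟨p', _, rfl⟩ := hp
          exact p'.2) (by rw [prod_map_sub]; exact h3) (x.val : ℤ)
      rw [prod_map_sub] at h5
      unfold mass at h5
      rw [← hJ] at h5
      set d := W * ∏ p ∈ Finset.univ.sup t, (p : ℕ) ^ g p with hd
      have hdpos : 0 < d := hmodpos _
      have hdr : (0 : ℝ) < d := by exact_mod_cast hdpos
      have hdle : (d : ℝ) ≤ (W : ℝ) * (D : ℝ) ^ (2 * m + 1) := by exact_mod_cast h3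
      set cnt := ∑ n ∈ J.filter (fun n : ℤ => n ≡ (x.val : ℤ) [ZMOD (d : ℕ)]), ν n
      have h6 : (d : ℝ) / N1 * cnt - 1 = (d : ℝ) / N1 * (cnt - (N1 : ℝ) / d) := by
        field_simp
      rw [h6, abs_mul, abs_of_nonneg (by positivity : (0 : ℝ) ≤ (d : ℝ) / N1)]
      calc (d : ℝ) / N1 * |cnt - (N1 : ℝ) / d| ≤ (d : ℝ) / N1 * E :=
            mul_le_mul_of_nonneg_left h5 (by positivity)
        _ = E * d / N1 := by ring
        _ ≤ _ := by gcongr)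
    (by
      have hcard : (Fs.card : ℝ) ≤ Fm.card := by exact_mod_cast hFscard
      rw [div_mul_eq_mul_div, div_le_one hN1r]
      calc E * ((W : ℝ) * (D : ℝ) ^ (2 * m + 1)) * (Fs.card : ℝ) ^ (2 * m)
          ≤ E * ((W : ℝ) * (D : ℝ) ^ (2 * m + 1)) * (Fm.card : ℝ) ^ (2 * m) := by gcongr
        _ = E * ((W : ℝ) * (D : ℝ) ^ (2 * m + 1) * (Fm.card : ℝ) ^ (2 * m)) := by ring
        _ ≤ N1 := hN1)
  -- the frequencies
  let T : Finset (Σ _ : ℕ, ℕ) := Qs.sigma (fun q => (Finset.range q).filter (Nat.Coprime q))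
  let ξf : (Σ _ : ℕ, ℕ) → ZMod (bigG W P g) := fun t =>
    ((t.2 * (bigG W P g / t.1) : ℕ) : ZMod (bigG W P g))
  have hT : ∀ t ∈ T, 1 ≤ t.1 ∧ t.2 < t.1 ∧ Nat.Coprime t.1 t.2 ∧ goodg P g W t.1 ∧
      Ug W t.1 ∈ Fm := by
    intro t ht
    simp only [T, Finset.mem_sigma, Finset.mem_filter, Finset.mem_range] at ht
    have h1 := hQs t.1 ht.1
    exact ⟨h1.1, ht.2.1, ht.2.2, h1.2.1, h1.2.2⟩
  have hinj : Set.InjOn ξf T := by
    apply freq_inj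
    intro t ht
    have h1 := hT t ht
    exact ⟨h1.1, goodg_dvd hP hW h1.1 h1.2.2.2.1, h1.2.1, h1.2.2.1⟩
  have hmap : ∀ t ∈ T, (UfG (ξf t)).map (Function.Embedding.subtype _) = Ug W t.1 := by
    intro t ht
    have h1 := hT t ht
    exact map_UfG hP hW h1.1 h1.2.2.2.1 h1.2.2.1
  have hbes := bessel_gG (HG W P g) (cg (bigG W P g) N1 G J) Fs (fun p : P => ρ p)
    (2 * β ^ 2 * (1 + β ^ (-(1 / (m : ℝ)))))
    (T.image ξf) UfG (by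
      intro ξ _ p
      simp only [UfG, Finset.mem_filter, Finset.mem_univ, true_and])
    (by
      intro ξ hξ
      rw [Finset.mem_image] at hξ
      obtain ⟨t, ht, rfl⟩ := hξ
      rw [hFsmem, hmap t ht]
      exact (hT t ht).2.2.2.2)
    (fun p => hρ0 p p.2) hlev
  rw [Finset.sum_image hinj] at hbes
  have hsum : ∑ q ∈ Qs, (∏ p ∈ Ug W q, ρ p) * enG G y N1 q =
      ∑ t ∈ T, (∏ p ∈ Ug W t.1, ρ p) * ‖Fw G y N1 ((t.2 : ℝ) / t.1)‖ ^ 2 := by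
    simp only [T]
    rw [Finset.sum_sigma]
    refine Finset.sum_congr rfl fun q _ => ?_
    unfold enG
    rw [Finset.mul_sum]
  rw [hsum]
  have hterm : ∀ t ∈ T, (∏ p ∈ Ug W t.1, ρ p) * ‖Fw G y N1 ((t.2 : ℝ) / t.1)‖ ^ 2 =
      ((N1 : ℝ) / (bigG W P g : ℝ)) ^ 2 * ((∏ p ∈ UfG (ξf t), ρ (p : ℕ)) *
        ‖ftz (fun z => (cg (bigG W P g) N1 G J z : ℂ)) (ξf t)‖ ^ 2) := by
    intro t ht
    have h1 := hT t ht
    have h2 : ∏ p ∈ UfG (ξf t), ρ (p : ℕ) = ∏ p ∈ Ug W t.1, ρ p := by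
      rw [← hmap t ht, Finset.prod_map]
      rfl
    rw [h2]
    simp only [ξf]
    rw [hJ, ftz_cg N1 G y h1.1 (goodg_dvd hP hW h1.1 h1.2.2.2.1), norm_mul, Complex.norm_real,
      Real.norm_eq_abs, abs_of_nonneg (by positivity), mul_pow]
    generalize ‖Fw G y N1 ((t.2 : ℝ) / t.1)‖ = Z
    field_simp
  rw [Finset.sum_congr rfl hterm, ← Finset.mul_sum]
  calc ((N1 : ℝ) / (bigG W P g : ℝ)) ^ 2 * _ ≤ ((N1 : ℝ) / (bigG W P g : ℝ)) ^ 2 *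
        ((bigG W P g : ℝ) ^ 2 * (2 * β ^ 2 * (1 + β ^ (-(1 / (m : ℝ)))))) :=
        mul_le_mul_of_nonneg_left hbes (by positivity)
    _ = (N1 : ℝ) ^ 2 * (2 * β ^ 2 * (1 + β ^ (-(1 / (m : ℝ))))) := by field_simp

theorem Fw_smul (c : ℝ) (G : ℤ → ℝ) (y : ℤ) (M : ℕ) (θ : ℝ) :
    Fw (fun n => c * G n) y M θ = c * Fw G y M θ := by
  unfold Fw
  rw [Finset.mul_sum]
  refine Finset.sum_congr rfl fun n _ => ?_
  push_cast
  ring

theorem enG_smul (c : ℝ) (G : ℤ → ℝ) (y : ℤ) (M q : ℕ) :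
    enG (fun n => c * G n) y M q = c ^ 2 * enG G y M q := by
  unfold enG
  rw [Finset.mul_sum]
  refine Finset.sum_congr rfl fun a _ => ?_
  rw [Fw_smul, norm_mul, mul_pow, Complex.norm_real, Real.norm_eq_abs, sq_abs]

theorem mass_smul (c : ℝ) (G : ℤ → ℝ) (y : ℤ) (M D : ℕ) (x : ℤ) :
    mass (fun n => c * G n) y M D x = c * mass G y M D x := by
  unfold mass
  rw [Finset.mul_sum]

/-- Level inequality for a weight `0 ≤ G ≤ A ν`, where the masses of `ν` in the classes that occur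
are `N1 / d` up to `E`. -/
theorem li3 (P : Finset ℕ) (g : ℕ → ℕ) (W D m N1 : ℕ) (β A E : ℝ) (ρ b : ℕ → ℝ)
    (G ν : ℤ → ℝ) (y : ℤ) (Fm : Finset (Finset ℕ)) (Qs : Finset ℕ)
    (hP : ∀ p ∈ P, p.Prime) (hW : 1 ≤ W) (hm : 2 ≤ m) (hβ : 0 < β) (hA : 0 < A)
    (hρ0 : ∀ p ∈ P, 0 ≤ ρ p) (hb : ∀ p ∈ P, 1 ≤ b p)
    (hρ : ∀ p ∈ P, 12 * m * ρ p * (1 + b p) ≤ 1)
    (hG0 : ∀ n, 0 ≤ G n) (hG1 : ∀ n, G n ≤ A * ν n)
    (hFmd : ∀ S ∈ Fm, ∀ T, T ⊆ S → T ∈ Fm)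
    (hFmD : ∀ S ∈ Fm, ∏ p ∈ S, p ^ g p ≤ D) (hN1pos : 1 ≤ N1)
    (hE0 : 0 ≤ E)
    (hν : ∀ S, S ⊆ P → W * ∏ p ∈ S, p ^ g p ≤ W * D ^ (2 * m + 1) → ∀ x : ℤ,
      |mass ν y N1 (W * ∏ p ∈ S, p ^ g p) x - N1 / ((W * ∏ p ∈ S, p ^ g p : ℕ) : ℝ)| ≤ E)
    (hN1 : E * (W * D ^ (2 * m + 1) * Fm.card ^ (2 * m)) ≤ N1)
    (hmass : ∀ S ∈ Fm, ∀ x : ℤ, mass G y N1 (W * ∏ p ∈ S, p ^ g p) x ≤
      β * (∏ p ∈ S, b p) * (N1 / ((W * ∏ p ∈ S, p ^ g p : ℕ) : ℝ)))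
    (hQs : ∀ q ∈ Qs, 1 ≤ q ∧ goodg P g W q ∧ Ug W q ∈ Fm) :
    ∑ q ∈ Qs, (∏ p ∈ Ug W q, ρ p) * enG G y N1 q ≤
      (N1 : ℝ) ^ 2 * (2 * β ^ 2 * (1 + (A / β) ^ (1 / (m : ℝ)))) := by
  have h := li3_one P g W D m N1 (β / A) E ρ b (fun n => A⁻¹ * G n) ν y Fm Qs hP hW hm
    (div_pos hβ hA) hρ0 hb hρ (fun n => mul_nonneg (inv_nonneg.2 hA.le) (hG0 n))
    (fun n => by
      rw [inv_mul_le_iff₀ hA]
      exact hG1 n) hFmd hFmD hN1pos hE0 hν hN1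
    (by
      intro S hS x
      rw [mass_smul]
      have h1 := mul_le_mul_of_nonneg_left (hmass S hS x) (inv_nonneg.2 hA.le)
      refine h1.trans (le_of_eq ?_)
      field_simp) hQs
  have e1 : ∀ q, (∏ p ∈ Ug W q, ρ p) * enG (fun n => A⁻¹ * G n) y N1 q =
      (A⁻¹) ^ 2 * ((∏ p ∈ Ug W q, ρ p) * enG G y N1 q) := by
    intro q
    rw [enG_smul]
    ring
  rw [Finset.sum_congr rfl fun q _ => e1 q, ← Finset.mul_sum] at h
  have e2 : (β / A) ^ (-(1 / (m : ℝ))) = (A / β) ^ (1 / (m : ℝ)) := by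
    rw [Real.rpow_neg (div_pos hβ hA).le, ← Real.inv_rpow (div_pos hβ hA).le, inv_div]
  rw [e2] at h
  have h2 := mul_le_mul_of_nonneg_left h (sq_nonneg A)
  have e3 : A ^ 2 * ((A⁻¹) ^ 2 * ∑ q ∈ Qs, (∏ p ∈ Ug W q, ρ p) * enG G y N1 q) =
      ∑ q ∈ Qs, (∏ p ∈ Ug W q, ρ p) * enG G y N1 q := by
    rw [← mul_assoc, ← mul_pow, mul_inv_cancel₀ hA.ne', one_pow, one_mul]
  rw [e3] at h2
  refine h2.trans (le_of_eq ?_)
  field_simp

end Vale.Agent.P042.H527
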