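import Vale.Agent.P042.H527.OmLI
import Vale.Agent.P042.H944.UoPush

set_option autoImplicit false
set_option linter.unusedSectionVars false

/-!
The statements of `MassOm` and `OmLI` for the weight `omc`.
-/

namespace Vale.Agent.P042.H527

open Finset Vale.Agent.P042 Vale.Agent.P042.SS Vale.Agent.P042.SS.LI Vale.Agent.P042.SS.LIG
open Vale.Agent.P042.TT.Loc Vale.Agent.P042.H944

variable {ι : Type} [Fintype ι] [DecidableEq ι] {V : ι → Type} [∀ i, Fintype (V i)]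
  [∀ i, DecidableEq (V i)]

theorem om_eq_omc (w : ∀ i, V i → ℝ) (red : ℤ → ∀ i, V i) (q : ι → ℝ) (T : Finset ι)
    (x : ∀ i, V i) (n : ℤ) : om red q w T x n = omc w red q T x n := by
  unfold om omc
  refine prod_congr rfl fun i _ => ?_
  split_ifs
  · rw [mul_one, div_eq_mul_inv]
  · simp

theorem om_eq_omc' (w : ∀ i, V i → ℝ) (red : ℤ → ∀ i, V i) (q : ι → ℝ) (T : Finset ι)
    (x : ∀ i, V i) : om red q w T x = omc w red q T x :=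
  funext fun n => om_eq_omc w red q T x n

/-- masses of the weight `omc` in residue classes -/
theorem mass_omc (w : ∀ i, V i → ℝ) (red : ℤ → ∀ i, V i) (q : ι → ℝ) (T : Finset ι)
    (x : ∀ i, V i) (prm : ι → ℕ) (hprm : ∀ i ∈ T, 1 ≤ prm i)
    (hco : ∀ i ∈ T, ∀ j ∈ T, i ≠ j → Nat.Coprime (prm i) (prm j))
    (hred : ∀ i ∈ T, ∀ n n' : ℤ, red n i = red n' i ↔ n ≡ n' [ZMOD (prm i : ℕ)])
    (hx : ∀ i ∈ T, ∃ n : ℤ, red n i = x i)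
    (hq0 : ∀ i ∈ T, 0 ≤ q i) (hq1 : ∀ i ∈ T, q i ≤ 1) (hw : ∀ i ∈ T, 0 < w i (x i))
    (y : ℤ) (N1 d : ℕ) (hd : 1 ≤ d) (hdco : ∀ i ∈ T, Nat.Coprime d (prm i)) (z : ℤ) :
    |mass (omc w red q T x) y N1 d z - Zom prm q w T x * (N1 / d)| ≤
      (∏ i ∈ T, (prm i : ℝ)) * Zom prm q w T x := by
  rw [← om_eq_omc']
  exact (mass_om red q w T x prm hprm hco hred hx hq0 hq1 hw y N1 d hd hdco z).trans
    (Som_le prm q w T x hprm hq0 hq1 hw)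

/-- Level inequality for `G * omc`, `0 ≤ G ≤ Gm`, every moment `m ≥ 2`; the factor `Zom` only
enters through `√(max 1 Zom)`. -/
theorem li3_omc (w : ∀ i, V i → ℝ) (red : ℤ → ∀ i, V i) (q : ι → ℝ) (T : Finset ι)
    (x : ∀ i, V i) (prm : ι → ℕ) (hprm : ∀ i ∈ T, 1 ≤ prm i)
    (hco : ∀ i ∈ T, ∀ j ∈ T, i ≠ j → Nat.Coprime (prm i) (prm j))
    (hred : ∀ i ∈ T, ∀ n n' : ℤ, red n i = red n' i ↔ n ≡ n' [ZMOD (prm i : ℕ)])
    (hx : ∀ i ∈ T, ∃ n : ℤ, red n i = x i)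
    (hq0 : ∀ i ∈ T, 0 ≤ q i) (hq1 : ∀ i ∈ T, q i ≤ 1) (hw : ∀ i ∈ T, 0 < w i (x i))
    (P : Finset ℕ) (g : ℕ → ℕ) (W D m N1 : ℕ) (β Gm : ℝ) (ρ b : ℕ → ℝ)
    (G : ℤ → ℝ) (y : ℤ) (Fm : Finset (Finset ℕ)) (Qs : Finset ℕ)
    (hP : ∀ p ∈ P, p.Prime) (hW : 1 ≤ W) (hm : 2 ≤ m) (hβ : 0 < β) (hGm : 0 < Gm)
    (hρ0 : ∀ p ∈ P, 0 ≤ ρ p) (hb : ∀ p ∈ P, 1 ≤ b p)
    (hρ : ∀ p ∈ P, 12 * m * ρ p * (1 + b p) ≤ 1)
    (hG0 : ∀ n, 0 ≤ G n) (hG1 : ∀ n, G n ≤ Gm)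
    (hFmd : ∀ S ∈ Fm, ∀ T, T ⊆ S → T ∈ Fm)
    (hFmD : ∀ S ∈ Fm, ∏ p ∈ S, p ^ g p ≤ D) (hN1pos : 1 ≤ N1)
    (hcopP : ∀ i ∈ T, ∀ p ∈ P, Nat.Coprime p (prm i))
    (hcopW : ∀ i ∈ T, Nat.Coprime W (prm i))
    (hcap : (∏ i ∈ T, prm i) * (W * D ^ (2 * m + 1) * Fm.card ^ (2 * m)) ≤ N1)
    (hmass : ∀ S ∈ Fm, ∀ z : ℤ, mass (fun n => G n * omc w red q T x n) y N1
      (W * ∏ p ∈ S, p ^ g p) z ≤ β * (∏ p ∈ S, b p) * (N1 / ((W * ∏ p ∈ S, p ^ g p : ℕ) : ℝ)))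
    (hQs : ∀ q ∈ Qs, 1 ≤ q ∧ goodg P g W q ∧ Ug W q ∈ Fm) :
    ∑ k ∈ Qs, (∏ p ∈ Ug W k, ρ p) * enG (fun n => G n * omc w red q T x n) y N1 k ≤
      (2 * (N1 : ℝ) ^ 2 * Real.sqrt (max 1 (Zom prm q w T x))) * β ^ 2 *
        (1 + (Gm / β) ^ (1 / (m : ℝ))) := by
  have h := li3_om red q w T x prm hprm hco hred hx hq0 hq1 hw P g W D m N1 β Gm ρ b G y Fm Qs
    hP hW hm hβ hGm hρ0 hb hρ hG0 hG1 hFmd hFmD hN1pos hcopP hcopW hcap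
    (by simpa only [om_eq_omc] using hmass) hQs
  simp only [om_eq_omc] at h
  refine h.trans ?_
  have hZ := Zom_pos q w T x prm hprm hq0 hq1 hw
  set Z := Zom prm q w T x
  have hmr : (2 : ℝ) ≤ m := by exact_mod_cast hm
  have hZ1 : 1 ≤ max 1 Z := le_max_left _ _
  have hs1 : 1 ≤ Real.sqrt (max 1 Z) := by
    rw [Real.one_le_sqrt]
    exact hZ1
  have e1 : (Gm * Z / β) ^ (1 / (m : ℝ)) = Z ^ (1 / (m : ℝ)) * (Gm / β) ^ (1 / (m : ℝ)) := by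
    rw [← Real.mul_rpow hZ.le (div_pos hGm hβ).le]
    congr 1
    ring
  have h2 : Z ^ (1 / (m : ℝ)) ≤ Real.sqrt (max 1 Z) := by
    calc Z ^ (1 / (m : ℝ)) ≤ (max 1 Z) ^ (1 / (m : ℝ)) :=
          Real.rpow_le_rpow hZ.le (le_max_right _ _) (by positivity)
      _ ≤ (max 1 Z) ^ (1 / (2 : ℝ)) := Real.rpow_le_rpow_of_exponent_le hZ1
          (one_div_le_one_div_of_le (by norm_num) hmr)
      _ = Real.sqrt (max 1 Z) := (Real.sqrt_eq_rpow _).symm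
  have h3 : 0 ≤ (Gm / β) ^ (1 / (m : ℝ)) := Real.rpow_nonneg (div_pos hGm hβ).le _
  have h4 : 1 + (Gm * Z / β) ^ (1 / (m : ℝ)) ≤
      Real.sqrt (max 1 Z) * (1 + (Gm / β) ^ (1 / (m : ℝ))) := by
    rw [e1]
    have := mul_le_mul_of_nonneg_right h2 h3
    linarith
  calc (N1 : ℝ) ^ 2 * (2 * β ^ 2 * (1 + (Gm * Z / β) ^ (1 / (m : ℝ))))
      ≤ (N1 : ℝ) ^ 2 * (2 * β ^ 2 * (Real.sqrt (max 1 Z) * (1 + (Gm / β) ^ (1 / (m : ℝ))))) := by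
        gcongr
    _ = _ := by ring

/-- second moment of the light-atom factor -/
theorem ex_sqrt_Zom_le (prm : ι → ℕ) (q : ι → ℝ) (w : ∀ i, V i → ℝ)
    (T : Finset ι) (hcard : ∀ i ∈ T, Fintype.card (V i) ≤ prm i) (hprm : ∀ i ∈ T, 1 ≤ prm i)
    (hq0 : ∀ i ∈ T, 0 ≤ q i) (hq1 : ∀ i ∈ T, q i ≤ 1) (hw : ∀ i a, 0 ≤ w i a)
    (hw1 : ∀ i, ∑ a, w i a = 1) :
    ex w (fun x => Real.sqrt (max 1 (Zom prm q w T x)) ^ 2) ≤ 2 := by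
  have h1 := ex_Zom_le prm q w T hcard hprm hq0 hq1 hw hw1
  have hZ0 : ∀ x, 0 ≤ Zom prm q w T x := fun x => prod_nonneg fun i hi => by
    have h1 := hq0 i hi
    have h2 := hq1 i hi
    have h3 : 0 ≤ q i / (prm i * w i (x i)) :=
      div_nonneg h1 (mul_nonneg (Nat.cast_nonneg _) (hw i _))
    linarith
  calc ex w (fun x => Real.sqrt (max 1 (Zom prm q w T x)) ^ 2)
      ≤ ex w (fun x => 1 + Zom prm q w T x) := by
        unfold ex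
        refine sum_le_sum fun x _ => mul_le_mul_of_nonneg_left ?_ (wt_nonneg w hw x)
        beta_reduce
        rw [Real.sq_sqrt (le_trans zero_le_one (le_max_left _ _))]
        rcases max_cases 1 (Zom prm q w T x) with ⟨h, _⟩ | ⟨h, _⟩
        · rw [h]; linarith [hZ0 x]
        · rw [h]; linarith
    _ = ex w (fun _ => (1:ℝ)) + ex w (Zom prm q w T) := by
        unfold ex
        rw [← sum_add_distrib]
        exact sum_congr rfl fun x _ => by ring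
    _ ≤ 1 + 1 := by
        rw [ex_const w hw1]
        linarith
    _ = 2 := by norm_num

end Vale.Agent.P042.H527
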