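import Vale.Agent.P042.H527.LI3

set_option autoImplicit false
set_option linter.unusedSectionVars false

/-!
The weight on the integers attached to a noisy masked point, and its masses in residue classes.
-/

namespace Vale.Agent.P042.H527

open Finset Vale.Agent.P042 Vale.Agent.P042.SS Vale.Agent.P042.SS.LI Vale.Agent.P042.SS.LIG

variable {ι : Type} [Fintype ι] [DecidableEq ι] {X : ι → Type} [∀ i, DecidableEq (X i)]

/-- the weight on the integers attached to `(T, x)` and the noise `q` -/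
noncomputable def om (red : ℤ → ∀ i, X i) (q : ι → ℝ) (π : ∀ i, X i → ℝ) (T : Finset ι)
    (x : ∀ i, X i) (n : ℤ) : ℝ :=
  ∏ i ∈ T, ((1 - q i) + q i * (if red n i = x i then 1 else 0) / π i (x i))

/-- mean of the weight `om` -/
noncomputable def Zom (prm : ι → ℕ) (q : ι → ℝ) (π : ∀ i, X i → ℝ) (T : Finset ι)
    (x : ∀ i, X i) : ℝ :=
  ∏ i ∈ T, ((1 - q i) + q i / (prm i * π i (x i)))

/-- the supremum of the weight `om` -/
noncomputable def Som (q : ι → ℝ) (π : ∀ i, X i → ℝ) (T : Finset ι) (x : ∀ i, X i) : ℝ :=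
  ∏ i ∈ T, ((1 - q i) + q i / π i (x i))

section

variable (red : ℤ → ∀ i, X i) (q : ι → ℝ) (π : ∀ i, X i → ℝ) (T : Finset ι) (x : ∀ i, X i)

theorem om_nonneg (hq0 : ∀ i ∈ T, 0 ≤ q i) (hq1 : ∀ i ∈ T, q i ≤ 1)
    (hπ : ∀ i ∈ T, 0 < π i (x i)) (n : ℤ) : 0 ≤ om red q π T x n := by
  refine prod_nonneg fun i hi => ?_
  have h1 := hq0 i hi
  have h2 := hq1 i hi
  have h3 := hπ i hi
  have h4 : 0 ≤ q i * (if red n i = x i then (1:ℝ) else 0) / π i (x i) := by
    apply div_nonneg (mul_nonneg h1 _) h3.le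
    split_ifs <;> norm_num
  linarith

theorem om_le_Som (hq0 : ∀ i ∈ T, 0 ≤ q i) (hq1 : ∀ i ∈ T, q i ≤ 1)
    (hπ : ∀ i ∈ T, 0 < π i (x i)) (n : ℤ) : om red q π T x n ≤ Som q π T x := by
  refine prod_le_prod (fun i hi => ?_) fun i hi => ?_
  · have h1 := hq0 i hi
    have h2 := hq1 i hi
    have h3 := hπ i hi
    have h4 : 0 ≤ q i * (if red n i = x i then (1:ℝ) else 0) / π i (x i) := by
      apply div_nonneg (mul_nonneg h1 _) h3.le
      split_ifs <;> norm_num
    linarith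
  · have h1 := hq0 i hi
    have h3 := hπ i hi
    have : q i * (if red n i = x i then (1:ℝ) else 0) / π i (x i) ≤ q i / π i (x i) := by
      apply div_le_div_of_nonneg_right _ h3.le
      split_ifs
      · rw [mul_one]
      · rw [mul_zero]; exact h1
    linarith

theorem Zom_pos (prm : ι → ℕ) (hprm : ∀ i ∈ T, 1 ≤ prm i) (hq0 : ∀ i ∈ T, 0 ≤ q i)
    (hq1 : ∀ i ∈ T, q i ≤ 1) (hπ : ∀ i ∈ T, 0 < π i (x i)) : 0 < Zom prm q π T x := by
  refine prod_pos fun i hi => ?_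
  have h1 := hq0 i hi
  have h2 := hq1 i hi
  have h3 := hπ i hi
  have h4 : (0:ℝ) < prm i := by exact_mod_cast hprm i hi
  rcases h1.eq_or_lt with h0 | h0
  · rw [← h0]; simp
  · have : 0 < q i / (prm i * π i (x i)) := div_pos h0 (mul_pos h4 h3)
    linarith

theorem om_expand (n : ℤ) : om red q π T x n =
    ∑ R ∈ T.powerset, ((∏ i ∈ R, q i / π i (x i)) * ∏ i ∈ T \ R, (1 - q i)) *
      (if ∀ i ∈ R, red n i = x i then 1 else 0) := by
  unfold om
  have e1 : ∀ i, (1 - q i) + q i * (if red n i = x i then (1:ℝ) else 0) / π i (x i) =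
      (q i / π i (x i)) * (if red n i = x i then (1:ℝ) else 0) + (1 - q i) := fun i => by ring
  simp only [e1]
  rw [Finset.prod_add]
  refine sum_congr rfl fun R _ => ?_
  rw [prod_mul_distrib]
  have e2 : ∏ i ∈ R, (if red n i = x i then (1:ℝ) else 0) =
      if ∀ i ∈ R, red n i = x i then 1 else 0 := by
    by_cases h : ∀ i ∈ R, red n i = x i
    · rw [if_pos h]
      exact prod_eq_one fun i hi => by rw [if_pos (h i hi)]
    · rw [if_neg h]
      push Not at h
      obtain ⟨i, hi, hne⟩ := h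
      exact prod_eq_zero hi (by rw [if_neg hne])
  rw [e2]
  ring

variable (prm : ι → ℕ)

/-- Chinese remainder theorem for the cells -/
theorem crt_cell (hco : ∀ i ∈ T, ∀ j ∈ T, i ≠ j → Nat.Coprime (prm i) (prm j))
    (hred : ∀ i ∈ T, ∀ n n' : ℤ, red n i = red n' i ↔ n ≡ n' [ZMOD (prm i : ℕ)])
    (hx : ∀ i ∈ T, ∃ n : ℤ, red n i = x i) (d : ℕ)
    (hdco : ∀ i ∈ T, Nat.Coprime d (prm i)) (z : ℤ) (R : Finset ι) (hR : R ⊆ T) :
    ∃ c : ℤ, ∀ n : ℤ, (n ≡ z [ZMOD (d : ℕ)] ∧ ∀ i ∈ R, red n i = x i) ↔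
      n ≡ c [ZMOD ((d * ∏ i ∈ R, prm i : ℕ) : ℤ)] := by
  induction R using Finset.induction_on with
  | empty => exact ⟨z, fun n => by simp⟩
  | insert i R hi ih =>
    obtain ⟨c, hc⟩ := ih ((subset_insert i R).trans hR)
    have hiT : i ∈ T := hR (mem_insert_self i R)
    obtain ⟨ni, hni⟩ := hx i hiT
    have hcop : Nat.Coprime (d * ∏ j ∈ R, prm j) (prm i) := by
      apply Nat.Coprime.mul_left (hdco i hiT)
      apply Nat.Coprime.prod_left
      intro j hj
      apply hco j (hR (mem_insert_of_mem hj)) i hiT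
      rintro rfl
      exact hi hj
    set D : ℕ := d * ∏ j ∈ R, prm j with hD
    have hIco : IsCoprime (D : ℤ) (prm i : ℤ) := Nat.isCoprime_iff_coprime.2 hcop
    obtain ⟨u, v, huv⟩ := hIco
    refine ⟨c * (v * prm i) + ni * (u * D), fun n => ?_⟩
    have e0 : d * ∏ j ∈ insert i R, prm j = D * prm i := by
      rw [prod_insert hi, hD]; ring
    have hcD : c * (v * prm i) + ni * (u * D) ≡ c [ZMOD (D : ℤ)] := by
      rw [Int.modEq_iff_dvd]
      refine ⟨c * u - ni * u, ?_⟩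
      have : v * (prm i : ℤ) = 1 - u * D := by linarith
      rw [this]; ring
    have hcp : c * (v * prm i) + ni * (u * D) ≡ ni [ZMOD (prm i : ℤ)] := by
      rw [Int.modEq_iff_dvd]
      refine ⟨ni * v - c * v, ?_⟩
      have : u * (D : ℤ) = 1 - v * prm i := by linarith
      rw [this]; ring
    rw [e0, Nat.cast_mul, ← Int.modEq_and_modEq_iff_modEq_mul (by
      rw [Int.natAbs_natCast, Int.natAbs_natCast]; exact hcop)]
    have h1 : (n ≡ z [ZMOD (d : ℕ)] ∧ ∀ j ∈ insert i R, red n j = x j) ↔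
        (n ≡ z [ZMOD (d : ℕ)] ∧ ∀ j ∈ R, red n j = x j) ∧ red n i = x i := by
      simp only [mem_insert, forall_eq_or_imp]
      tauto
    rw [h1, hc n]
    have h2 : red n i = x i ↔ n ≡ ni [ZMOD (prm i : ℕ)] := by
      rw [← hni]; exact hred i hiT n ni
    rw [h2]
    constructor
    · rintro ⟨h3, h4⟩
      exact ⟨h3.trans hcD.symm, h4.trans hcp.symm⟩
    · rintro ⟨h3, h4⟩
      exact ⟨h3.trans hcD, h4.trans hcp⟩

/-- masses of the weight `om` in residue classes -/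
theorem mass_om (hprm : ∀ i ∈ T, 1 ≤ prm i)
    (hco : ∀ i ∈ T, ∀ j ∈ T, i ≠ j → Nat.Coprime (prm i) (prm j))
    (hred : ∀ i ∈ T, ∀ n n' : ℤ, red n i = red n' i ↔ n ≡ n' [ZMOD (prm i : ℕ)])
    (hx : ∀ i ∈ T, ∃ n : ℤ, red n i = x i)
    (hq0 : ∀ i ∈ T, 0 ≤ q i) (hq1 : ∀ i ∈ T, q i ≤ 1) (hπ : ∀ i ∈ T, 0 < π i (x i))
    (y : ℤ) (N1 d : ℕ) (hd : 1 ≤ d) (hdco : ∀ i ∈ T, Nat.Coprime d (prm i)) (z : ℤ) :
    |mass (om red q π T x) y N1 d z - Zom prm q π T x * (N1 / d)| ≤ Som q π T x := by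
  have hdr : (0:ℝ) < d := by exact_mod_cast hd
  set cf : Finset ι → ℝ := fun R => (∏ i ∈ R, q i / π i (x i)) * ∏ i ∈ T \ R, (1 - q i) with hcf
  have hcf0 : ∀ R ∈ T.powerset, 0 ≤ cf R := by
    intro R hR
    rw [mem_powerset] at hR
    refine mul_nonneg (prod_nonneg fun i hi => div_nonneg (hq0 i (hR hi)) (hπ i (hR hi)).le)
      (prod_nonneg fun i hi => ?_)
    have := hq1 i (mem_sdiff.1 hi).1
    linarith
  have e1 : mass (om red q π T x) y N1 d z = ∑ R ∈ T.powerset, cf R *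
      (((Ioc y (y + N1)).filter (fun n : ℤ => n ≡ z [ZMOD (d : ℕ)] ∧
        ∀ i ∈ R, red n i = x i)).card : ℝ) := by
    unfold mass
    simp only [om_expand]
    rw [sum_comm]
    refine sum_congr rfl fun R _ => ?_
    rw [← mul_sum, ← sum_filter, filter_filter, sum_const, nsmul_eq_mul, mul_one]
  have e2 : Zom prm q π T x * (N1 / d) = ∑ R ∈ T.powerset, cf R *
      ((N1 : ℝ) / ((d * ∏ i ∈ R, prm i : ℕ) : ℝ)) := by
    unfold Zom
    have e3 : ∀ i, (1 - q i) + q i / (prm i * π i (x i)) =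
      (q i / (prm i * π i (x i))) + (1 - q i) := fun i => by ring
    simp only [e3]
    rw [Finset.prod_add, sum_mul]
    refine sum_congr rfl fun R hR => ?_
    have hR' := mem_powerset.1 hR
    have e4 : ∏ i ∈ R, q i / (prm i * π i (x i)) =
        (∏ i ∈ R, q i / π i (x i)) / ∏ i ∈ R, (prm i : ℝ) := by
      rw [← prod_div_distrib]
      refine prod_congr rfl fun i _ => ?_
      rw [div_div, mul_comm]
    have e5 : (0:ℝ) < ∏ i ∈ R, (prm i : ℝ) := prod_pos fun i hi => by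
      exact_mod_cast hprm i (hR' hi)
    rw [e4]
    simp only [hcf]
    push_cast
    field_simp
  have e6 : Som q π T x = ∑ R ∈ T.powerset, cf R := by
    unfold Som
    have e3 : ∀ i, (1 - q i) + q i / π i (x i) = (q i / π i (x i)) + (1 - q i) := fun i => by ring
    simp only [e3]
    rw [Finset.prod_add]
  rw [e1, e2, e6, ← sum_sub_distrib]
  refine (abs_sum_le_sum_abs _ _).trans (sum_le_sum fun R hR => ?_)
  rw [← mul_sub, abs_mul, abs_of_nonneg (hcf0 R hR)]
  have hR' := mem_powerset.1 hR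
  obtain ⟨c, hc⟩ := crt_cell red T x prm hco hred hx d hdco z R hR'
  have hpos : 0 < d * ∏ i ∈ R, prm i :=
    Nat.mul_pos (by omega) (prod_pos fun i hi => hprm i (hR' hi))
  have h := count_mod (N1 := N1) hpos y c
  have e7 : (Ioc y (y + N1)).filter (fun n : ℤ => n ≡ z [ZMOD (d : ℕ)] ∧
        ∀ i ∈ R, red n i = x i) =
      (Ioc y (y + N1)).filter (fun n : ℤ => n ≡ c [ZMOD ((d * ∏ i ∈ R, prm i : ℕ) : ℤ)]) :=
    filter_congr fun n _ => hc n
  rw [e7]
  calc cf R * _ ≤ cf R * 1 := mul_le_mul_of_nonneg_left h (hcf0 R hR)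
    _ = cf R := mul_one _

end

end Vale.Agent.P042.H527
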