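import Vale.Agent.P042.H527.MixNv

set_option autoImplicit false
set_option linter.unusedSectionVars false

/-!
Mixed level inequality, version with a light-atom factor in the level inequality.
-/

namespace Vale.Agent.P042.H527

open Finset Vale.Agent.P042.TT.Loc Vale.Agent.P042.UU.Loc

/-- the scalar inequality which removes the light-atom factor -/
theorem b4 (m : ℕ) (hm : 2 ≤ m) (B Z : ℝ) (hB : 0 < B) (hZ : 0 ≤ Z) :
    B ^ 2 * (Z / B) ^ (1 / (m : ℝ)) ≤ B ^ 4 + 1 + Z := by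
  have hm2 : (2 : ℝ) ≤ m := by exact_mod_cast hm
  have hm0 : (0 : ℝ) < m := by linarith
  have hw : 0 < 1 - 1 / (m : ℝ) := by
    have : 1 / (m : ℝ) ≤ 1 / 2 := one_div_le_one_div_of_le (by norm_num) hm2
    linarith
  have hw2 : (1 : ℝ) / m ≤ 1 / 2 := one_div_le_one_div_of_le (by norm_num) hm2
  set ex : ℝ := (2 - 1 / (m : ℝ)) / (1 - 1 / (m : ℝ)) with hex
  have hex4 : ex ≤ 4 := by
    rw [hex, div_le_iff₀ hw]
    linarith
  have hex0 : 0 ≤ ex := div_nonneg (by linarith) hw.le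
  have h1 := Real.geom_mean_le_arith_mean2_weighted (w₁ := 1 / (m : ℝ)) (w₂ := 1 - 1 / (m : ℝ))
    (by positivity) hw.le hZ (Real.rpow_nonneg hB.le ex) (by ring)
  have e1 : (B ^ ex) ^ (1 - 1 / (m : ℝ)) = B ^ (2 - 1 / (m : ℝ)) := by
    rw [← Real.rpow_mul hB.le]
    congr 1
    rw [hex, div_mul_cancel₀ _ hw.ne']
  have e2 : B ^ (2 - 1 / (m : ℝ)) = B ^ 2 * B ^ (-(1 / (m : ℝ))) := by
    rw [sub_eq_add_neg, Real.rpow_add hB, Real.rpow_two]
  have e3 : B ^ 2 * (Z / B) ^ (1 / (m : ℝ)) = Z ^ (1 / (m : ℝ)) * B ^ (2 - 1 / (m : ℝ)) := by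
    rw [e2, Real.div_rpow hZ hB.le, Real.rpow_neg hB.le, div_eq_mul_inv]
    ring
  rw [e1] at h1
  rw [e3]
  refine h1.trans ?_
  have h2 : B ^ ex ≤ B ^ 4 + 1 := by
    rcases le_total B 1 with h | h
    · have : B ^ ex ≤ 1 := Real.rpow_le_one hB.le h hex0
      have h4 : 0 ≤ B ^ 4 := by positivity
      linarith
    · have : B ^ ex ≤ B ^ (4 : ℝ) := Real.rpow_le_rpow_of_exponent_le h hex4
      have h5 : B ^ (4 : ℝ) = B ^ 4 := by
        rw [show (4 : ℝ) = ((4 : ℕ) : ℝ) by norm_num, Real.rpow_natCast]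
      rw [h5] at this
      linarith
  have h3 : 0 ≤ B ^ ex := Real.rpow_nonneg hB.le ex
  have h4 : (1 - 1 / (m : ℝ)) * B ^ ex ≤ B ^ ex := by
    have : 0 ≤ 1 / (m : ℝ) := by positivity
    nlinarith
  have h5 : 1 / (m : ℝ) * Z ≤ Z := by nlinarith
  linarith

variable {ι : Type} [Fintype ι] [DecidableEq ι]
variable {X : ι → Type} [∀ i, Fintype (X i)] [∀ i, DecidableEq (X i)]

/-- **Mixed level inequality**, with a light-atom factor `Zf` of mean at most one. -/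
theorem mix_nvZ (m : ℕ) (C1 C2 : ℝ) (hm : 2 ≤ m) (hC1 : 0 ≤ C1) (hC2 : 0 ≤ C2)
    (hone : OneC m C1 C2) (t q r0 c : ι → ℝ) (ht : ∀ i, 0 ≤ t i) (ht1 : ∀ i, t i ≤ 1)
    (hq : ∀ i, 0 ≤ q i) (hr1 : ∀ i, r0 i ≤ 1) (hc : ∀ i, 0 ≤ c i)
    (hC : ∀ i, t i * (q i * q i) * (C1 + C2 * ((q i * (1 + c i)) ^ 2) ^ (m - 1)) ≤ r0 i)
    (π : ∀ i, X i → ℝ) (hπ : ∀ i x, 0 ≤ π i x) (hπ1 : ∀ i, ∑ x, π i x = 1)
    (kk d : ℕ) (hd : (kk : ℝ) + 2 * ∑ i, t i ≤ d)
    {Sg : Type} (SG : Finset Sg) (Fs : Sg → (∀ i, X i) → ℝ) (E Ga : Sg → ℝ)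
    (hGa : ∀ sg ∈ SG, 0 < Ga sg) (hE0 : ∀ sg ∈ SG, 0 ≤ E sg)
    (hE : ∀ sg ∈ SG, ∀ (T : Finset ι) (a : ∀ i, X i), T.card ≤ d → (∀ i ∈ T, π i (a i) ≠ 0) →
      TT.Loc.en π r0 (tr π (d - T.card) (restr T a (Fs sg))) ≤ (∏ i ∈ T, c i) ^ 2 * E sg)
    (Zf : Finset ι → (∀ i, X i) → ℝ) (hZ : ∀ T : Finset ι, T.card ≤ d → ex π (Zf T) ≤ 1)
    {Ka : Type} (KA : Finset Ka) (v : Ka → ℝ) (hv : ∀ ka ∈ KA, 0 ≤ v ka)
    (Fk : Ka → (∀ i, X i) → ℝ) (ε : ℝ) (hε : 0 ≤ ε)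
    (hlev : ∀ (T : Finset ι) (x : ∀ i, X i), T.card ≤ d → (∀ i, π i (x i) ≠ 0) →
      ∀ A : ℝ, 0 ≤ A → (∀ sg ∈ SG, uo q π (Fs sg) (mask T x) ≤ A * Ga sg) →
      ∑ ka ∈ KA, v ka * uo q π (Fk ka) (mask T x) ^ 2 ≤ ε * (A ^ 4 + 1 + Zf T x)) :
    ∑ W ∈ univ.filter (fun W : Finset ι => W.card ≤ kk),
      (∏ i ∈ W, t i * q i ^ 2) * ∑ ka ∈ KA, v ka * nW π W (Fk ka) ≤
      2 * ε * ((∑ sg ∈ SG, (E sg / Ga sg ^ 2) ^ m) ^ ((2 : ℝ) / m) + 2) := by
  classical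
  have h2m : 2 * m ≠ 0 := by omega
  have hm0 : m ≠ 0 := by omega
  have hm1 : 1 ≤ m := by omega
  have hmr : (2 : ℝ) ≤ m := by exact_mod_cast hm
  -- the maximal function
  set S : Finset ι → (∀ i, X i) → ℝ := fun T x =>
    ∑ sg ∈ SG, (uo q π (Fs sg) (mask T x) / Ga sg) ^ (2 * m) with hS
  have hS0 : ∀ T x, 0 ≤ S T x := fun T x => sum_nonneg fun sg _ => (even_two_mul m).pow_nonneg _
  set A : Finset ι → (∀ i, X i) → ℝ := fun T x => (S T x) ^ (((2 * m : ℕ) : ℝ)⁻¹) with hA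
  have hA0 : ∀ T x, 0 ≤ A T x := fun T x => Real.rpow_nonneg (hS0 T x) _
  have hAp : ∀ T x, A T x ^ (2 * m) = S T x := fun T x =>
    Real.rpow_inv_natCast_pow (hS0 T x) h2m
  have hAmax : ∀ T x, ∀ sg ∈ SG, uo q π (Fs sg) (mask T x) ≤ A T x * Ga sg := by
    intro T x sg hsg
    rw [← div_le_iff₀ (hGa sg hsg)]
    apply le_of_abs_le
    have h1 : |uo q π (Fs sg) (mask T x) / Ga sg| ^ (2 * m) ≤ A T x ^ (2 * m) := by
      rw [hAp, (even_two_mul m).pow_abs]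
      exact single_le_sum (f := fun sg => (uo q π (Fs sg) (mask T x) / Ga sg) ^ (2 * m))
        (fun sg _ => (even_two_mul m).pow_nonneg _) hsg
    exact le_of_pow_le_pow_left₀ h2m (hA0 T x) h1
  -- weights of the pairs
  set p : Finset ι × (∀ i, X i) → ℝ := fun z => Wp t z.1 * wt π z.2 with hp
  have hp0 : ∀ z, 0 ≤ p z := fun z => mul_nonneg (Wp_nonneg t ht ht1 _) (wt_nonneg π hπ _)
  have hwt1 : ∑ x, wt π x = 1 := by
    have h := ex_const π hπ1 1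
    unfold ex at h
    simpa using h
  have hp1 : ∑ z : Finset ι × (∀ i, X i), p z = 1 := by
    rw [Fintype.sum_prod_type]
    simp only [hp, ← mul_sum, hwt1, mul_one]
    exact sum_Wp t
  set a : Finset ι × (∀ i, X i) → ℝ := fun z => if z.1.card ≤ d then A z.1 z.2 ^ 4 else 0 with ha
  have ha0 : ∀ z, 0 ≤ a z := by
    intro z
    simp only [ha]
    split_ifs
    · exact pow_nonneg (hA0 _ _) _
    · exact le_refl _
  set Z : ℝ := ∑ z : Finset ι × (∀ i, X i), p z * a z with hZdef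
  have hZ0 : 0 ≤ Z := sum_nonneg fun z _ => mul_nonneg (hp0 z) (ha0 z)
  have hpow : ∀ T x, (A T x ^ 4) ^ ((m : ℝ) / 2) = S T x := by
    intro T x
    rw [← hAp, ← Real.rpow_natCast (A T x) 4, ← Real.rpow_mul (hA0 T x),
      ← Real.rpow_natCast (A T x) (2 * m)]
    congr 1
    push_cast
    ring
  have hZm : Z ^ ((m : ℝ) / 2) ≤ ∑ sg ∈ SG, (E sg / Ga sg ^ 2) ^ m := by
    refine (Real.rpow_arith_mean_le_arith_mean_rpow univ p a (fun z _ => hp0 z) hp1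
      (fun z _ => ha0 z) (by linarith : (1 : ℝ) ≤ (m : ℝ) / 2)).trans ?_
    have e1 : ∀ z : Finset ι × (∀ i, X i), p z * a z ^ ((m : ℝ) / 2) =
        ∑ sg ∈ SG, (1 / Ga sg ^ (2 * m)) * (if z.1.card ≤ d then
          Wp t z.1 * (wt π z.2 * uo q π (Fs sg) (mask z.1 z.2) ^ (2 * m)) else 0) := by
      intro z
      by_cases hz : z.1.card ≤ d
      · simp only [ha, hp, hz, if_true]
        rw [hpow, hS, mul_sum]
        refine sum_congr rfl fun sg _ => ?_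
        rw [div_pow]
        ring
      · have h0 : (0 : ℝ) ^ ((m : ℝ) / 2) = 0 := Real.zero_rpow (by positivity)
        simp only [ha, hz, if_false, h0, mul_zero, sum_const_zero]
    simp only [e1]
    rw [sum_comm]
    refine sum_le_sum fun sg hsg => ?_
    rw [← mul_sum]
    have h2 := noisy_moment m C1 C2 hm1 hC1 hC2 hone t q r0 c ht ht1 hq hr1 hc hC π hπ hπ1
      (Fs sg) d (E sg) (hE0 sg hsg) (hE sg hsg)
    have e2 : ∑ z : Finset ι × (∀ i, X i), (if z.1.card ≤ d then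
          Wp t z.1 * (wt π z.2 * uo q π (Fs sg) (mask z.1 z.2) ^ (2 * m)) else 0) =
        ∑ T ∈ univ.filter (fun T : Finset ι => T.card ≤ d), Wp t T *
          (ex π fun x => uo q π (Fs sg) (mask T x) ^ (2 * m)) := by
      rw [Fintype.sum_prod_type, sum_filter]
      refine sum_congr rfl fun T _ => ?_
      by_cases hT : T.card ≤ d
      · simp only [hT, if_true]
        unfold ex
        rw [mul_sum]
      · simp only [hT, if_false, sum_const_zero]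
    rw [e2]
    have h3 : 0 < Ga sg ^ (2 * m) := pow_pos (hGa sg hsg) _
    rw [div_pow, ← pow_mul, one_div, inv_mul_eq_div]
    exact div_le_div_of_nonneg_right h2 h3.le
  have hZle : Z ≤ (∑ sg ∈ SG, (E sg / Ga sg ^ 2) ^ m) ^ ((2 : ℝ) / m) := by
    have h1 : Z = (Z ^ ((m : ℝ) / 2)) ^ ((2 : ℝ) / m) := by
      rw [← Real.rpow_mul hZ0]
      have : (m : ℝ) / 2 * (2 / m) = 1 := by field_simp
      rw [this, Real.rpow_one]
    rw [h1]
    exact Real.rpow_le_rpow (Real.rpow_nonneg hZ0 _) hZm (by positivity)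
  -- the main inequality
  have hmain : ∑ ka ∈ KA, v ka * ∑ T ∈ univ.filter (fun T : Finset ι => T.card ≤ d), Wp t T *
        (ex π fun x => uo q π (Fk ka) (mask T x) ^ 2) ≤ ε * (Z + 2) := by
    have e1 : ∑ ka ∈ KA, v ka * ∑ T ∈ univ.filter (fun T : Finset ι => T.card ≤ d), Wp t T *
        (ex π fun x => uo q π (Fk ka) (mask T x) ^ 2) =
        ∑ z : Finset ι × (∀ i, X i), p z * (if z.1.card ≤ d then
          ∑ ka ∈ KA, v ka * uo q π (Fk ka) (mask z.1 z.2) ^ 2 else 0) := by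
      rw [Fintype.sum_prod_type]
      have e2 : ∀ T : Finset ι, ∑ x, p (T, x) * (if T.card ≤ d then
          ∑ ka ∈ KA, v ka * uo q π (Fk ka) (mask T x) ^ 2 else 0) =
          if T.card ≤ d then ∑ ka ∈ KA, v ka * (Wp t T *
            (ex π fun x => uo q π (Fk ka) (mask T x) ^ 2)) else 0 := by
        intro T
        by_cases hT : T.card ≤ d
        · simp only [hT, if_true, hp]
          unfold ex
          simp only [mul_sum]
          rw [sum_comm]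
          refine sum_congr rfl fun ka _ => sum_congr rfl fun x _ => ?_
          ring
        · simp only [hT, if_false, mul_zero, sum_const_zero]
      simp only [e2]
      rw [← sum_filter, sum_comm]
      refine sum_congr rfl fun ka _ => ?_
      rw [mul_sum]
    rw [e1]
    set b : Finset ι × (∀ i, X i) → ℝ := fun z => if z.1.card ≤ d then Zf z.1 z.2 else 0 with hb
    have h1 : ∀ z : Finset ι × (∀ i, X i), p z * (if z.1.card ≤ d then
          ∑ ka ∈ KA, v ka * uo q π (Fk ka) (mask z.1 z.2) ^ 2 else 0) ≤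
          p z * (ε * (a z + 1 + b z)) := by
      intro z
      by_cases hwz : wt π z.2 = 0
      · simp only [hp, hwz, mul_zero, zero_mul, le_refl]
      · apply mul_le_mul_of_nonneg_left _ (hp0 z)
        by_cases hz : z.1.card ≤ d
        · simp only [ha, hb, hz, if_true]
          apply hlev z.1 z.2 hz _ (A z.1 z.2) (hA0 _ _) (hAmax _ _)
          intro i h0
          exact hwz (prod_eq_zero (mem_univ i) h0)
        · simp only [ha, hb, hz, if_false]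
          nlinarith
    refine (sum_le_sum fun z _ => h1 z).trans ?_
    have e3 : ∀ z : Finset ι × (∀ i, X i), p z * (ε * (a z + 1 + b z)) =
      ε * (p z * a z) + ε * p z + ε * (p z * b z) := fun z => by ring
    simp only [e3]
    rw [sum_add_distrib, sum_add_distrib, ← mul_sum, ← mul_sum, ← mul_sum, hp1, ← hZdef]
    have h4 : ∑ z : Finset ι × (∀ i, X i), p z * b z ≤ 1 := by
      rw [Fintype.sum_prod_type]
      calc ∑ T : Finset ι, ∑ x, p (T, x) * b (T, x) ≤ ∑ T : Finset ι, Wp t T := by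
            refine sum_le_sum fun T _ => ?_
            have hw := Wp_nonneg t ht ht1 T
            by_cases hT : T.card ≤ d
            · have h6 := mul_le_mul_of_nonneg_left (hZ T hT) hw
              rw [mul_one] at h6
              refine le_trans (le_of_eq ?_) h6
              simp only [hp, hb, hT, if_true]
              unfold ex
              rw [mul_sum]
              exact sum_congr rfl fun x _ => by ring
            · simp only [hb, hT, if_false, mul_zero, sum_const_zero]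
              exact hw
        _ = 1 := sum_Wp t
    nlinarith
  -- conclusion
  have hlow : 1 / 2 * ∑ W ∈ univ.filter (fun W : Finset ι => W.card ≤ kk),
      (∏ i ∈ W, t i * q i ^ 2) * ∑ ka ∈ KA, v ka * nW π W (Fk ka) ≤
      ∑ ka ∈ KA, v ka * ∑ T ∈ univ.filter (fun T : Finset ι => T.card ≤ d), Wp t T *
        (ex π fun x => uo q π (Fk ka) (mask T x) ^ 2) := by
    have e1 : 1 / 2 * ∑ W ∈ univ.filter (fun W : Finset ι => W.card ≤ kk),
      (∏ i ∈ W, t i * q i ^ 2) * ∑ ka ∈ KA, v ka * nW π W (Fk ka) =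
      ∑ ka ∈ KA, v ka * (1 / 2 * ∑ W ∈ univ.filter (fun W : Finset ι => W.card ≤ kk),
        (∏ i ∈ W, t i * q i ^ 2) * nW π W (Fk ka)) := by
      simp only [mul_sum]
      rw [sum_comm]
      refine sum_congr rfl fun ka _ => sum_congr rfl fun W _ => ?_
      ring
    rw [e1]
    exact sum_le_sum fun ka hka => mul_le_mul_of_nonneg_left
      (en_le_of_sets π hπ hπ1 t q ht ht1 kk d (Fk ka) hd) (hv ka hka)
  have h3 : ε * (Z + 2) ≤ ε * ((∑ sg ∈ SG, (E sg / Ga sg ^ 2) ^ m) ^ ((2 : ℝ) / m) + 2) :=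
    mul_le_mul_of_nonneg_left (by linarith) hε
  linarith [hlow.trans (hmain.trans h3)]

/-- `mix_nvZ` with the constants of `oneC_poly`. -/
theorem mix_nvZ_poly (m : ℕ) (hm : 2 ≤ m) (s r0 c : ι → ℝ) (hs : ∀ i, 0 ≤ s i)
    (hr1 : ∀ i, r0 i ≤ 1) (hc : ∀ i, 0 ≤ c i) (hsr : ∀ i, (8 * m + 32) * s i ≤ r0 i)
    (hs1 : ∀ i, (8 * m * (1 + c i)) ^ 2 * s i ≤ 1)
    (π : ∀ i, X i → ℝ) (hπ : ∀ i x, 0 ≤ π i x) (hπ1 : ∀ i, ∑ x, π i x = 1)
    (kk d : ℕ) (hd : (kk : ℝ) + 2 * ∑ i, (8 * m * (1 + c i)) ^ 2 * s i ≤ d)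
    {Sg : Type} (SG : Finset Sg) (Fs : Sg → (∀ i, X i) → ℝ) (E Ga : Sg → ℝ)
    (hGa : ∀ sg ∈ SG, 0 < Ga sg) (hE0 : ∀ sg ∈ SG, 0 ≤ E sg)
    (hE : ∀ sg ∈ SG, ∀ (T : Finset ι) (a : ∀ i, X i), T.card ≤ d → (∀ i ∈ T, π i (a i) ≠ 0) →
      TT.Loc.en π r0 (tr π (d - T.card) (restr T a (Fs sg))) ≤ (∏ i ∈ T, c i) ^ 2 * E sg)
    (Zf : Finset ι → (∀ i, X i) → ℝ) (hZ : ∀ T : Finset ι, T.card ≤ d → ex π (Zf T) ≤ 1)
    {Ka : Type} (KA : Finset Ka) (v : Ka → ℝ) (hv : ∀ ka ∈ KA, 0 ≤ v ka)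
    (Fk : Ka → (∀ i, X i) → ℝ) (ε : ℝ) (hε : 0 ≤ ε)
    (hlev : ∀ (T : Finset ι) (x : ∀ i, X i), T.card ≤ d → (∀ i, π i (x i) ≠ 0) →
      ∀ A : ℝ, 0 ≤ A →
      (∀ sg ∈ SG, uo (fun i => 1 / (8 * m * (1 + c i))) π (Fs sg) (mask T x) ≤ A * Ga sg) →
      ∑ ka ∈ KA, v ka * uo (fun i => 1 / (8 * m * (1 + c i))) π (Fk ka) (mask T x) ^ 2 ≤
        ε * (A ^ 4 + 1 + Zf T x)) :
    ∑ W ∈ univ.filter (fun W : Finset ι => W.card ≤ kk),
      (∏ i ∈ W, s i) * ∑ ka ∈ KA, v ka * nW π W (Fk ka) ≤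
      2 * ε * ((∑ sg ∈ SG, (E sg / Ga sg ^ 2) ^ m) ^ ((2 : ℝ) / m) + 2) := by
  have hm1' : 1 ≤ m := by omega
  have hm1 : (1 : ℝ) ≤ m := by exact_mod_cast hm1'
  have hu : ∀ i, 0 < 8 * (m : ℝ) * (1 + c i) := fun i => by
    have := hc i
    positivity
  have e1 : ∀ i, (8 * (m : ℝ) * (1 + c i)) ^ 2 * s i * (1 / (8 * m * (1 + c i))) ^ 2 = s i := by
    intro i
    have h5 := (hu i).ne'
    generalize 8 * (m : ℝ) * (1 + c i) = u at h5 ⊢
    field_simp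
  have h := mix_nvZ m (8 * m) (2 * (4 * m) ^ (2 * m)) hm (by positivity) (by positivity)
    (oneC_poly m hm1') (fun i => (8 * m * (1 + c i)) ^ 2 * s i) (fun i => 1 / (8 * m * (1 + c i)))
    r0 c (fun i => mul_nonneg (sq_nonneg _) (hs i)) hs1 (fun i => (div_pos one_pos (hu i)).le) hr1
    hc (by
      intro i
      have h1 := noise_num m hm1' (c i) (hc i)
      have h2 : (8 * (m : ℝ) * (1 + c i)) ^ 2 * s i * (1 / (8 * m * (1 + c i)) *
          (1 / (8 * m * (1 + c i)))) = s i := by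
        rw [← sq]
        exact e1 i
      rw [h2]
      have h3 := mul_le_mul_of_nonneg_left h1 (hs i)
      linarith [hsr i]) π hπ hπ1 kk d hd SG Fs E Ga hGa hE0 hE Zf hZ KA v hv Fk ε hε hlev
  simp only [e1] at h
  exact h

/-- `mix_nvZ_poly` with a multiplicative light-atom factor whose second moment is bounded. -/
theorem mix_nvZ_mul (m : ℕ) (hm : 2 ≤ m) (s r0 c : ι → ℝ) (hs : ∀ i, 0 ≤ s i)
    (hr1 : ∀ i, r0 i ≤ 1) (hc : ∀ i, 0 ≤ c i) (hsr : ∀ i, (8 * m + 32) * s i ≤ r0 i)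
    (hs1 : ∀ i, (8 * m * (1 + c i)) ^ 2 * s i ≤ 1)
    (π : ∀ i, X i → ℝ) (hπ : ∀ i x, 0 ≤ π i x) (hπ1 : ∀ i, ∑ x, π i x = 1)
    (kk d : ℕ) (hd : (kk : ℝ) + 2 * ∑ i, (8 * m * (1 + c i)) ^ 2 * s i ≤ d)
    {Sg : Type} (SG : Finset Sg) (Fs : Sg → (∀ i, X i) → ℝ) (E Ga : Sg → ℝ)
    (hGa : ∀ sg ∈ SG, 0 < Ga sg) (hE0 : ∀ sg ∈ SG, 0 ≤ E sg)
    (hE : ∀ sg ∈ SG, ∀ (T : Finset ι) (a : ∀ i, X i), T.card ≤ d → (∀ i ∈ T, π i (a i) ≠ 0) →
      TT.Loc.en π r0 (tr π (d - T.card) (restr T a (Fs sg))) ≤ (∏ i ∈ T, c i) ^ 2 * E sg)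
    (Zf : Finset ι → (∀ i, X i) → ℝ) (CZ : ℝ) (hCZ : 1 ≤ CZ)
    (hZ : ∀ T : Finset ι, T.card ≤ d → ex π (fun x => Zf T x ^ 2) ≤ CZ)
    {Ka : Type} (KA : Finset Ka) (v : Ka → ℝ) (hv : ∀ ka ∈ KA, 0 ≤ v ka)
    (Fk : Ka → (∀ i, X i) → ℝ) (ε : ℝ) (hε : 0 ≤ ε)
    (hlev : ∀ (T : Finset ι) (x : ∀ i, X i), T.card ≤ d → (∀ i, π i (x i) ≠ 0) →
      ∀ A : ℝ, 0 ≤ A →
      (∀ sg ∈ SG, uo (fun i => 1 / (8 * m * (1 + c i))) π (Fs sg) (mask T x) ≤ A * Ga sg) →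
      ∑ ka ∈ KA, v ka * uo (fun i => 1 / (8 * m * (1 + c i))) π (Fk ka) (mask T x) ^ 2 ≤
        ε * (A ^ 2 + 1) * Zf T x) :
    ∑ W ∈ univ.filter (fun W : Finset ι => W.card ≤ kk),
      (∏ i ∈ W, s i) * ∑ ka ∈ KA, v ka * nW π W (Fk ka) ≤
      2 * ε * CZ * ((∑ sg ∈ SG, (E sg / Ga sg ^ 2) ^ m) ^ ((2 : ℝ) / m) + 2) := by
  have hCZ0 : 0 < CZ := by linarith
  have h := mix_nvZ_poly m hm s r0 c hs hr1 hc hsr hs1 π hπ hπ1 kk d hd SG Fs E Ga hGa hE0 hE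
    (fun T x => Zf T x ^ 2 / CZ) (by
      intro T hT
      have h1 := hZ T hT
      have e : ex π (fun x => Zf T x ^ 2 / CZ) = CZ⁻¹ * ex π (fun x => Zf T x ^ 2) := by
        rw [← ex_const_mul]
        congr 1
        funext x
        rw [div_eq_inv_mul]
      rw [e, inv_mul_le_iff₀ hCZ0, mul_one]
      exact h1) KA v hv Fk (ε * CZ) (mul_nonneg hε hCZ0.le) (by
      intro T x hT hx A hA hsg
      refine (hlev T x hT hx A hA hsg).trans ?_
      have e : ε * CZ * (A ^ 4 + 1 + Zf T x ^ 2 / CZ) =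
          ε * (CZ * (A ^ 4 + 1) + Zf T x ^ 2) := by
        field_simp
      rw [e, mul_assoc]
      apply mul_le_mul_of_nonneg_left _ hε
      have h2 : (A ^ 2 + 1) * Zf T x ≤ ((A ^ 2 + 1) ^ 2 + Zf T x ^ 2) / 2 := by
        nlinarith [sq_nonneg (A ^ 2 + 1 - Zf T x)]
      have h3 : (A ^ 2 + 1) ^ 2 ≤ 2 * (A ^ 4 + 1) := by nlinarith [sq_nonneg (A ^ 2 - 1)]
      have h4 : A ^ 4 + 1 ≤ CZ * (A ^ 4 + 1) := by
        have : 0 ≤ A ^ 4 + 1 := by positivity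
        nlinarith
      nlinarith [sq_nonneg (Zf T x)])
  linarith [h]

end Vale.Agent.P042.H527
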