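import Vale.Agent.P042.H188.Hlev
import Vale.Agent.P042.H359.Bridge

/-!
helper527 (P042, S.7, row T3): a residue class inside a cell is a cell.
-/

set_option autoImplicit false

namespace Vale.Agent.P042.H527

open Finset Vale.Agent.P042.H188 Vale.Agent.P042.H359

/-- integer CRT for two coprime moduli -/
theorem crt_two {q d : ℕ} (hq : 0 < q) (hd : 0 < d) (hco : Nat.Coprime q d) (a b : ℤ) :
    ∃ c' : ℕ, c' < q * d ∧ ∀ n : ℤ,
      (n ≡ a [ZMOD (q : ℕ)] ∧ n ≡ b [ZMOD (d : ℕ)]) ↔ n % ((q * d : ℕ) : ℤ) = (c' : ℤ) := by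
  obtain ⟨u, v, huv⟩ := (Nat.isCoprime_iff_coprime.2 hco : IsCoprime (q : ℤ) (d : ℤ))
  have hqd : (0 : ℤ) < ((q * d : ℕ) : ℤ) := by exact_mod_cast Nat.mul_pos hq hd
  set c : ℤ := a * (v * d) + b * (u * q) with hc
  have ha : c ≡ a [ZMOD (q : ℕ)] := by
    rw [Int.modEq_iff_dvd]
    refine ⟨(a - b) * u, ?_⟩
    have e : v * (d : ℤ) = 1 - u * q := by linarith
    rw [hc, e]; ring
  have hb : c ≡ b [ZMOD (d : ℕ)] := by
    rw [Int.modEq_iff_dvd]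
    refine ⟨(b - a) * v, ?_⟩
    have e : u * (q : ℤ) = 1 - v * d := by linarith
    rw [hc, e]; ring
  have h0 : 0 ≤ c % ((q * d : ℕ) : ℤ) := Int.emod_nonneg _ hqd.ne'
  refine ⟨(c % ((q * d : ℕ) : ℤ)).toNat, ?_, fun n => ?_⟩
  · have := Int.emod_lt_of_pos c hqd
    omega
  · rw [Int.toNat_of_nonneg h0]
    have key : (n ≡ c [ZMOD ((q * d : ℕ) : ℤ)]) ↔ (n ≡ c [ZMOD (q : ℕ)] ∧ n ≡ c [ZMOD (d : ℕ)]) := by
      constructor
      · intro h
        constructor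
        · exact h.of_dvd (by push_cast; exact Dvd.intro _ rfl)
        · exact h.of_dvd (by push_cast; exact Dvd.intro_left _ rfl)
      · rintro ⟨h1, h2⟩
        rw [Int.modEq_iff_dvd] at h1 h2 ⊢
        push_cast
        exact (Nat.isCoprime_iff_coprime.2 hco : IsCoprime (q : ℤ) (d : ℤ)).mul_dvd h1 h2
    have e2 : (n % ((q * d : ℕ) : ℤ) = c % ((q * d : ℕ) : ℤ)) ↔ n ≡ c [ZMOD ((q * d : ℕ) : ℤ)] :=
      Iff.rfl
    rw [e2, key]
    constructor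
    · rintro ⟨h1, h2⟩
      exact ⟨h1.trans ha.symm, h2.trans hb.symm⟩
    · rintro ⟨h1, h2⟩
      exact ⟨h1.trans ha, h2.trans hb⟩

/-- **a residue class modulo `d` inside a cell modulo `qn` is a cell modulo `qn * d`** -/
theorem cellZ_filter {qn c u v d : ℕ} (hq : 0 < qn) (hd : 0 < d) (hco : Nat.Coprime qn d)
    (hc : c < qn) (z : ℤ) :
    ∃ c' : ℕ, c' < qn * d ∧
      (cellZ qn c u v).filter (fun n => n ≡ z [ZMOD (d : ℕ)]) = cellZ (qn * d) c' u v := by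
  obtain ⟨c', h1, h2⟩ := crt_two hq hd hco (c : ℤ) z
  refine ⟨c', h1, ?_⟩
  ext n
  unfold cellZ
  rw [mem_filter, mem_filter, mem_filter, ← h2 n, and_assoc]
  have e : (n % (qn : ℤ) = (c : ℤ)) ↔ n ≡ (c : ℤ) [ZMOD (qn : ℕ)] := by
    unfold Int.ModEq
    rw [Int.emod_eq_of_lt (a := (c : ℤ)) (by positivity) (by exact_mod_cast hc)]
  rw [e]

/-- **(T3)** -/
theorem tcell_cellZ {qn c u v : ℕ} {sg : Σ _ : ℕ, ℕ} (hq : 0 < qn) (hd : 0 < sg.1)
    (hco : Nat.Coprime qn sg.1) (hc : c < qn) :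
    ∃ c' : ℕ, c' < qn * sg.1 ∧ tcell (cellZ qn c u v) sg = cellZ (qn * sg.1) c' u v :=
  cellZ_filter hq hd hco hc (sg.2 : ℤ)

/-- coprimality of a modulus from its prime factors -/
theorem coprime_of_factors {qn d : ℕ} {Pr T : Finset ℕ} (hd : 0 < d)
    (hPr : ∀ p ∈ d.primeFactors, p ∈ Pr) (hT : ∀ p ∈ qn.primeFactors, p ∈ T)
    (hdis : ∀ p ∈ Pr, p ∉ T) (hq : 0 < qn) : Nat.Coprime qn d := by
  rw [← Nat.disjoint_primeFactors hq.ne' hd.ne', Finset.disjoint_left]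
  intro p h1 h2
  exact hdis p (hPr p h2) (hT p h1)

end Vale.Agent.P042.H527
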